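import Crest.Agent.R300.Dec.Row
import Crest.Agent.R300.U.Calc

/-!
# Row 300, machine side: dictionary between bit masks and finite sets of positions
-/

set_option autoImplicit false
set_option linter.dupNamespace false

namespace Crest.Agent.R300.Dec

open Crest.Agent.R300U

/-- the set of a mask -/
def mset {N : ℕ} (S : List Bool) : Finset (Fin N) :=
  Finset.univ.filter (fun i => S.getD i false = true)

/-- the mask of a set -/
def maskF {N : ℕ} (A : Finset (Fin N)) : List Bool := List.ofFn (fun i => decide (i ∈ A))

theorem mem_mset {N : ℕ} (S : List Bool) (i : Fin N) :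
    i ∈ (mset S : Finset (Fin N)) ↔ S.getD i false = true := by
  simp [mset]

@[simp] theorem length_maskF {N : ℕ} (A : Finset (Fin N)) : (maskF A).length = N := by
  simp [maskF]

theorem getElem_maskF {N : ℕ} (A : Finset (Fin N)) {i : ℕ} (h : i < (maskF A).length) :
    (maskF A)[i] = decide ((⟨i, by simpa using h⟩ : Fin N) ∈ A) := by
  simp [maskF]

theorem getD_maskF {N : ℕ} (A : Finset (Fin N)) (i : Fin N) :
    (maskF A).getD i false = decide (i ∈ A) := by
  rw [List.getD_eq_getElem _ _ (by simp)]
  simp [maskF]

theorem getD_maskF_of_le {N : ℕ} (A : Finset (Fin N)) {i : ℕ} (h : N ≤ i) :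
    (maskF A).getD i false = false := by
  rw [List.getD_eq_getElem?_getD, List.getElem?_eq_none (by simpa using h)]
  rfl

theorem maskF_mset {N : ℕ} {S : List Bool} (h : S.length = N) :
    maskF (mset S : Finset (Fin N)) = S := by
  refine List.ext_getElem (by simp [h]) fun i h1 h2 => ?_
  rw [getElem_maskF]
  simp only [mem_mset]
  rw [List.getD_eq_getElem _ _ h2]
  simp

theorem mset_maskF {N : ℕ} (A : Finset (Fin N)) : mset (maskF A) = A := by
  ext i
  rw [mem_mset, getD_maskF]
  simp

theorem mset_injOn {N : ℕ} {S T : List Bool} (hS : S.length = N) (hT : T.length = N)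
    (h : (mset S : Finset (Fin N)) = mset T) : S = T := by
  rw [← maskF_mset hS, h, maskF_mset hT]

theorem card_mset {N : ℕ} {S : List Bool} (h : S.length = N) :
    (mset S : Finset (Fin N)).card = S.count true := by
  subst h
  induction S with
  | nil => simp [mset]
  | cons b S ih =>
    have e : (mset (b :: S) : Finset (Fin (S.length + 1))) =
        (if b = true then {0} else ∅) ∪ (mset S : Finset (Fin S.length)).map (Fin.succEmb _) := by
      ext i
      rw [mem_mset, Finset.mem_union, Finset.mem_map]
      refine Fin.cases ?_ (fun j => ?_) i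
      · cases b <;> simp
      · simp only [Fin.val_succ, List.getD_cons_succ, Fin.coe_succEmb, Fin.succ_inj, exists_eq_right]
        rw [mem_mset]
        cases b <;> simp
    have e' : (mset (b :: S) : Finset (Fin (b :: S).length)).card =
        (mset (b :: S) : Finset (Fin (S.length + 1))).card := rfl
    rw [e', e, Finset.card_union_of_disjoint, Finset.card_map, ih]
    · cases b
      · simp
      · rw [if_pos rfl, Finset.card_singleton, List.count_cons_self]; ring
    · rw [Finset.disjoint_left]
      intro i hi hi'
      cases b
      · simp at hi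
      · simp only [if_true, Finset.mem_singleton] at hi
        subst hi
        simp only [Finset.mem_map, Fin.coe_succEmb] at hi'
        obtain ⟨j, _, hj⟩ := hi'
        exact Fin.succ_ne_zero j hj

theorem count_maskF {N : ℕ} (A : Finset (Fin N)) : (maskF A).count true = A.card := by
  rw [← card_mset (length_maskF A), mset_maskF]

theorem maskF_mem_masks {N d : ℕ} {A : Finset (Fin N)} : maskF A ∈ masks N d ↔ A.card ≤ d := by
  rw [mem_masks, count_maskF, length_maskF]
  simp

theorem maskF_union {N : ℕ} (A B : Finset (Fin N)) :
    maskF (A ∪ B) = orL (maskF A) (maskF B) := by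
  refine List.ext_getElem ?_ fun i h1 h2 => ?_
  · rw [length_maskF, length_orL (length_maskF A) (length_maskF B)]
  · have e : (orL (maskF A) (maskF B))[i] =
        ((maskF A)[i]'(by simpa using h1) || (maskF B)[i]'(by simpa using h1)) := by
      simp [orL]
    rw [e, getElem_maskF, getElem_maskF, getElem_maskF]
    simp only [Finset.mem_union]
    rw [Bool.decide_or]


theorem maskF_empty {N : ℕ} : maskF (∅ : Finset (Fin N)) = List.replicate N false := by
  refine List.ext_getElem (by simp) fun i h1 h2 => ?_
  simp [maskF]

theorem hit_maskF {N : ℕ} (A : Finset (Fin N)) (z : Fin N → Bool) :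
    hit (maskF A) (List.ofFn z) = true ↔ ∀ i ∈ A, z i = true := by
  rw [hit_iff]
  constructor
  · intro h i hi
    have := h i (by rw [getD_maskF]; simpa using hi)
    rw [List.getD_eq_getElem _ _ (by simp)] at this
    simpa using this
  · intro h i hi
    by_cases hN : i < N
    · have h1 : (⟨i, hN⟩ : Fin N) ∈ A := by
        have := getD_maskF A ⟨i, hN⟩
        simp only at this
        rw [this] at hi
        simpa using hi
      rw [List.getD_eq_getElem _ _ (by simpa using hN)]
      simpa using h _ h1
    · rw [getD_maskF_of_le A (not_lt.mp hN)] at hi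
      exact absurd hi (by decide)

theorem mono_eq_hit {N : ℕ} (A : Finset (Fin N)) (z : Fin N → Bool) :
    (R300U.mono A : R N) z = if hit (maskF A) (List.ofFn z) = true then 1 else 0 := by
  unfold R300U.mono
  by_cases h : ∀ i ∈ A, z i = true
  · rw [if_pos h, if_pos ((hit_maskF A z).2 h)]
  · rw [if_neg h, if_neg (fun h' => h ((hit_maskF A z).1 h'))]

theorem mono_mset {N : ℕ} {S : List Bool} (hS : S.length = N) (z : Fin N → Bool) :
    (R300U.mono (mset S : Finset (Fin N)) : R N) z =
      if hit S (List.ofFn z) = true then 1 else 0 := by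
  rw [mono_eq_hit, maskF_mset hS]

theorem sum_masks {N d : ℕ} {M : Type*} [AddCommMonoid M] (f : Finset (Fin N) → M)
    (hf : ∀ A, d < A.card → f A = 0) :
    ((masks N d).map fun S => f (mset S)).sum = ∑ A, f A := by
  classical
  rw [← List.sum_toFinset _ (nodup_masks N d)]
  have h1 : ∑ A : Finset (Fin N), f A =
      ∑ A ∈ Finset.univ.filter (fun A : Finset (Fin N) => A.card ≤ d), f A := by
    symm
    apply Finset.sum_subset (Finset.filter_subset _ _)
    intro A _ hA
    apply hf
    simpa using hA
  rw [h1]
  refine Finset.sum_bij (fun S _ => mset S) ?_ ?_ ?_ ?_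
  · intro S hS
    rw [List.mem_toFinset, mem_masks] at hS
    simp only [Finset.mem_filter, Finset.mem_univ, true_and]
    rw [card_mset hS.1]; exact hS.2
  · intro S hS T hT h
    rw [List.mem_toFinset, mem_masks] at hS hT
    exact mset_injOn hS.1 hT.1 h
  · intro A hA
    simp only [Finset.mem_filter, Finset.mem_univ, true_and] at hA
    exact ⟨maskF A, by rw [List.mem_toFinset, maskF_mem_masks]; exact hA, mset_maskF A⟩
  · intro S _; rfl

end Crest.Agent.R300.Dec
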