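import Crest.Agent.R300.Dec.Row
import Crest.Agent.R300.Sdp
import Crest.Agent.R300.U.Calc
import Mathlib
import Crest.Agent.R300.Dec.MaskSet
import Crest.Agent.R300.U.Eval
import Crest.Prelude.Def_Randomized
import Crest.Prelude.Def_TraceDecoder
import Crest.Agent.R300.U.DecSound
import Crest.Agent.Lib.PT.ListFns2
import Crest.Agent.Lib.PT.ArithRat
import Crest.Agent.Lib.PT.Alphabet

-- ▼ part R300/Dec/Prog
section

/-!
# Row 300, machine side: the decoder program (FROZEN definitions)

Input: retention `p = a / b`, word length `n`, traces `Ys` (`m = Ys.length`).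
-/

set_option autoImplicit false
set_option linter.dupNamespace false

namespace Crest.Agent.R300.Dec

open Crest.Agent.Lib.PT

/-- empirical frequency of `hit J` -/
def emp (J : List Bool) (Ys : List (List Bool)) : ℚ :=
  ((Ys.countP fun y => hit J y : ℕ) : ℚ) / (Ys.length : ℚ)

/-- number of trace positions used -/
def parK (n m : ℕ) : ℕ := Nat.log 2 m / (64 * Nat.size n)

/-- tolerance of the data constraints, `β²` with `β = 2 ^ (-(log₂ m / 8))` -/
def parTol (m : ℕ) : ℚ := 1 / 2 ^ (2 * (Nat.log 2 m / 8))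

/-- row of the normalisation `L 1 = 1` -/
def unitRow (N d : ℕ) : List ℚ :=
  (masks N d).map fun R => if R = List.replicate N false then 1 else 0

/-- constraints of the feasibility problem when the prefix `w` is known; `st` is the list of masks
`J` (of weight `≤ K`, length `n`) with the empirical frequencies. -/
def consOf (m a b n K : ℕ) (st : List (List Bool × ℚ)) (w : List Bool) : List PCon :=
  (unitRow (n - w.length) (2 * (2 * K)), 1, 1 / (m : ℚ)) ::
    st.map fun Jt => (rowOf (n - w.length) (2 * (2 * K)) (terms a b n K w Jt.1 Jt.2), 0, parTol m)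

/-- the solution of the feasibility problem -/
def solOf (m a b n K : ℕ) (st : List (List Bool × ℚ)) (w : List Bool) : List ℚ :=
  sdpRun m (masks (n - w.length) (2 * (2 * K))).length (idxTab (n - w.length) (2 * K))
    (consOf m a b n K st w)

/-- the next letter: compare twice the moment of `{t}` with the moment of `∅` -/
def nextBit (m a b n K : ℕ) (st : List (List Bool × ℚ)) (w : List Bool) : Bool :=
  decide ((solOf m a b n K st w).getD
      (pos (masks (n - w.length) (2 * (2 * K))) (List.replicate (n - w.length) false)) 0 <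
    2 * (solOf m a b n K st w).getD
      (pos (masks (n - w.length) (2 * (2 * K))) (true :: List.replicate (n - w.length - 1) false)) 0)

/-- the statistics -/
def statsOf (n K : ℕ) (Ys : List (List Bool)) : List (List Bool × ℚ) :=
  (masks n K).map fun J => (J, emp J Ys)

/-- the decoder (for `n ≤ m`) -/
def decodeCore (a b n : ℕ) (Ys : List (List Bool)) : List Bool :=
  (fun w => w ++ [nextBit Ys.length a b n (parK n Ys.length) (statsOf n (parK n Ys.length) Ys) w])^[n]
    []

/-- the decoder -/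
def decodeW (a b n : ℕ) (Ys : List (List Bool)) : List Bool :=
  decodeCore a b (min n Ys.length) Ys

end Crest.Agent.R300.Dec
end

-- ▼ part R300/Dec/Lift
section

/-!
# Row 300, machine side: from pseudo-expectations on the tail to pseudo-expectations on words
-/

set_option autoImplicit false
set_option linter.dupNamespace false

namespace Crest.Agent.R300.Dec

open Crest.Agent.R300U

/-- the word with known prefix `w` and tail `z` -/
def glue {n : ℕ} (w : List Bool) (z : Fin (n - w.length) → Bool) : Fin n → Bool :=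
  fun i => if h : (i : ℕ) < w.length then w.getD i false else z ⟨i - w.length, by omega⟩











theorem ofFn_glue {n : ℕ} (w : List Bool) (hw : w.length ≤ n) (z : Fin (n - w.length) → Bool) :
    List.ofFn (glue w z) = w ++ List.ofFn z := by
  refine List.ext_getElem ?_ fun i h1 h2 => ?_
  · rw [List.length_ofFn, List.length_append, List.length_ofFn]; omega
  · rw [List.getElem_ofFn]
    unfold glue
    by_cases h : i < w.length
    · rw [dif_pos h, List.getElem_append_left h]
      rw [List.getD_eq_getElem _ _ h]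
    · rw [dif_neg h, List.getElem_append_right (by omega), List.getElem_ofFn]

end Crest.Agent.R300.Dec
end

-- ▼ part R300/Dec/Num
section

/-!
# Row 300, machine side: small numeric facts
-/

set_option autoImplicit false

namespace Crest.Agent.R300.Dec

theorem two_pow_log_le_cast {m : ℕ} (hm : 1 ≤ m) : (2 : ℝ) ^ Nat.log 2 m ≤ m := by
  exact_mod_cast Nat.pow_log_le_self 2 (by omega)

theorem delta_le {n N m K : ℕ} (hn : 1 ≤ n) (hN : N ≤ n) (hm : 1 ≤ m)
    (h : (n + 1) ^ (64 * K) ≤ 2 ^ Nat.log 2 m) (hL : 10000 ≤ Nat.log 2 m) :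
    2 * (1 / (m : ℝ)) * 4 ^ (2 * K) * ((N : ℝ) + 1) ^ (2 * (2 * K)) ≤
      ((1 / 2 : ℝ) ^ (Nat.log 2 m / 8)) ^ 2 := by
  set L := Nat.log 2 m with hLdef
  have hm' : (2 : ℝ) ^ L ≤ m := two_pow_log_le_cast hm
  have hmpos : (0 : ℝ) < m := by positivity
  -- the natural number inequality
  have key : 2 * (n + 1) ^ (8 * K) * 2 ^ (2 * (L / 8)) ≤ 2 ^ L := by
    refine le_of_not_gt fun hlt => ?_
    have h1 : (2 ^ L) ^ 8 < (2 * (n + 1) ^ (8 * K) * 2 ^ (2 * (L / 8))) ^ 8 :=
      Nat.pow_lt_pow_left hlt (by norm_num)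
    have h2 : (2 * (n + 1) ^ (8 * K) * 2 ^ (2 * (L / 8))) ^ 8 =
        2 ^ 8 * (n + 1) ^ (64 * K) * 2 ^ (16 * (L / 8)) := by
      have e1 : ((n + 1) ^ (8 * K)) ^ 8 = (n + 1) ^ (64 * K) := by
        rw [← pow_mul]; congr 1; ring
      have e2 : (2 ^ (2 * (L / 8))) ^ 8 = 2 ^ (16 * (L / 8)) := by
        rw [← pow_mul]; congr 1; ring
      rw [mul_pow, mul_pow, e1, e2]
    have h3 : 2 ^ 8 * (n + 1) ^ (64 * K) * 2 ^ (16 * (L / 8)) ≤ 2 ^ 8 * 2 ^ L * 2 ^ (2 * L) :=
      Nat.mul_le_mul (Nat.mul_le_mul_left _ h) (Nat.pow_le_pow_right (by norm_num) (by omega))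
    have h4 : 2 ^ 8 * 2 ^ L * 2 ^ (2 * L) ≤ (2 ^ L) ^ 8 := by
      rw [← pow_add, ← pow_add, ← pow_mul]
      exact Nat.pow_le_pow_right (by norm_num) (by omega)
    rw [h2] at h1
    exact absurd (h1.trans_le (h3.trans h4)) (lt_irrefl _)
  have key' : 2 * ((n : ℝ) + 1) ^ (8 * K) * 2 ^ (2 * (L / 8)) ≤ 2 ^ L := by exact_mod_cast key
  have h4K : (4 : ℝ) ^ (2 * K) ≤ ((n : ℝ) + 1) ^ (4 * K) := by
    have e1 : (4 : ℝ) ^ (2 * K) = 2 ^ (4 * K) := by
      rw [show (4 : ℝ) = 2 ^ 2 by norm_num, ← pow_mul]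
      congr 1
      ring
    rw [e1]
    have : (1 : ℝ) ≤ n := by exact_mod_cast hn
    exact pow_le_pow_left₀ (by norm_num) (by linarith) _
  have hNK : ((N : ℝ) + 1) ^ (2 * (2 * K)) ≤ ((n : ℝ) + 1) ^ (4 * K) := by
    have e : 2 * (2 * K) = 4 * K := by ring
    rw [e]
    have : (N : ℝ) ≤ n := by exact_mod_cast hN
    exact pow_le_pow_left₀ (by positivity) (by linarith) _
  have hprod : (4 : ℝ) ^ (2 * K) * ((N : ℝ) + 1) ^ (2 * (2 * K)) ≤ ((n : ℝ) + 1) ^ (8 * K) := by
    have e : ((n : ℝ) + 1) ^ (8 * K) = ((n : ℝ) + 1) ^ (4 * K) * ((n : ℝ) + 1) ^ (4 * K) := by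
      rw [← pow_add]; congr 1; ring
    rw [e]
    exact mul_le_mul h4K hNK (by positivity) (by positivity)
  have eb : ((1 / 2 : ℝ) ^ (L / 8)) ^ 2 = 1 / 2 ^ (2 * (L / 8)) := by
    rw [one_div, inv_pow, inv_pow, ← pow_mul, mul_comm, one_div]
  rw [eb, le_div_iff₀ (by positivity)]
  have e2 : 2 * (1 / (m : ℝ)) * 4 ^ (2 * K) * ((N : ℝ) + 1) ^ (2 * (2 * K)) * 2 ^ (2 * (L / 8)) =
      (2 * ((4 : ℝ) ^ (2 * K) * ((N : ℝ) + 1) ^ (2 * (2 * K))) * 2 ^ (2 * (L / 8))) / m := by
    field_simp
  rw [e2, div_le_one hmpos]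
  calc 2 * ((4 : ℝ) ^ (2 * K) * ((N : ℝ) + 1) ^ (2 * (2 * K))) * 2 ^ (2 * (L / 8))
      ≤ 2 * ((n : ℝ) + 1) ^ (8 * K) * 2 ^ (2 * (L / 8)) := by gcongr
    _ ≤ 2 ^ L := key'
    _ ≤ m := hm'

theorem three_div_le {m : ℕ} (hL : 10000 ≤ Nat.log 2 m) : 3 / (m : ℝ) ≤ 1 / 4 := by
  have hm : 1 ≤ m := by
    by_contra h
    have : m = 0 := by omega
    subst this
    simp at hL
  have h1 : (2 : ℝ) ^ Nat.log 2 m ≤ m := two_pow_log_le_cast hm
  have h2 : (2 : ℝ) ^ 4 ≤ 2 ^ Nat.log 2 m := pow_le_pow_right₀ (by norm_num) (by omega)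
  have h3 : (16 : ℝ) ≤ m := by linarith
  rw [div_le_iff₀ (by linarith)]
  linarith

theorem eight_beta_le {L : ℕ} (hL : 10000 ≤ L) :
    8 * (1 / 2 : ℝ) ^ (L / 8) ≤ (1 / 2) ^ (L / 9) := by
  have e : (8 : ℝ) = (1 / 2) ^ (-3 : ℤ) := by norm_num
  have h : (1 / 2 : ℝ) ^ (L / 8) = (1 / 2) ^ (3 : ℕ) * (1 / 2) ^ (L / 8 - 3) := by
    rw [← pow_add]; congr 1; omega
  rw [h]
  have h2 : (1 / 2 : ℝ) ^ (L / 8 - 3) ≤ (1 / 2) ^ (L / 9) :=
    pow_le_pow_of_le_one (by norm_num) (by norm_num) (by omega)
  linarith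

end Crest.Agent.R300.Dec
end

-- ▼ part R300/Dec/Bit
section

/-!
# Row 300, machine side: the coefficients of a data constraint as a function of sets
-/

set_option autoImplicit false
set_option linter.dupNamespace false

namespace Crest.Agent.R300.Dec

/-- collect the coefficients of equal index -/
theorem sum_collect {α ι : Type*} [Fintype ι] [DecidableEq ι] (P : List α) (g : α → ι) (c : α → ℝ)
    (F : ι → ℝ) :
    ∑ S, (P.map fun u => if g u = S then c u else 0).sum * F S = (P.map fun u => c u * F (g u)).sum := by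
  induction P with
  | nil => simp
  | cons u P ih =>
    simp only [List.map_cons, List.sum_cons, add_mul, Finset.sum_add_distrib, ih]
    congr 1
    simp [ite_mul]

theorem sum_collect₂ {α ι : Type*} [Fintype ι] [DecidableEq ι] (P : List α) (g : α → ι)
    (c : α → ℝ) (F : ι → ι → ℝ) :
    ∑ S, ∑ T, (P.map fun u => if g u = S then c u else 0).sum *
        (P.map fun u => if g u = T then c u else 0).sum * F S T =
      (P.map fun u => (P.map fun v => c u * c v * F (g u) (g v)).sum).sum := by
  have h1 : ∀ S, ∑ T, (P.map fun u => if g u = S then c u else 0).sum *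
        (P.map fun u => if g u = T then c u else 0).sum * F S T =
      (P.map fun u => if g u = S then c u else 0).sum * (P.map fun v => c v * F S (g v)).sum := by
    intro S
    rw [← sum_collect P g c (F S), Finset.mul_sum]
    exact Finset.sum_congr rfl fun T _ => by ring
  rw [Finset.sum_congr rfl fun S _ => h1 S, sum_collect P g c]
  congr 1
  refine List.map_congr_left fun u _ => ?_
  rw [← List.sum_map_mul_left]
  congr 1
  exact List.map_congr_left fun v _ => by ring

theorem sum_collect_complex {α ι : Type*} [Fintype ι] [DecidableEq ι] (P : List α) (g : α → ι)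
    (c : α → ℝ) (F : ι → ℂ) :
    ∑ S, (((P.map fun u => if g u = S then c u else 0).sum : ℝ) : ℂ) * F S =
      (P.map fun u => (c u : ℂ) * F (g u)).sum := by
  induction P with
  | nil => simp
  | cons u P ih =>
    simp only [List.map_cons, List.sum_cons, Complex.ofReal_add, add_mul, Finset.sum_add_distrib, ih]
    congr 1
    rw [Finset.sum_eq_single (g u)]
    · simp
    · intro S _ h; simp [h.symm]
    · simp

/-- the coefficient function of a list of terms -/
noncomputable def dvOf (N : ℕ) (P : List (List Bool × ℚ)) (S : Finset (Fin N)) : ℝ :=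
  (P.map fun u => if (mset u.1 : Finset (Fin N)) = S then (u.2 : ℝ) else 0).sum

theorem dvOf_eq_zero {N K : ℕ} {P : List (List Bool × ℚ)}
    (hP : ∀ u ∈ P, u.1.length = N ∧ u.1.count true ≤ K) (S : Finset (Fin N)) (hS : K < S.card) :
    dvOf N P S = 0 := by
  unfold dvOf
  apply List.sum_eq_zero
  intro y hy
  rw [List.mem_map] at hy
  obtain ⟨u, hu, rfl⟩ := hy
  rw [if_neg]
  intro h
  have := card_mset (N := N) (hP u hu).1
  rw [h] at this
  have := (hP u hu).2
  omega

theorem sum_dvOf_mono {N : ℕ} {P : List (List Bool × ℚ)} (hP : ∀ u ∈ P, u.1.length = N)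
    (z : Fin N → Bool) :
    ∑ S, ((dvOf N P S : ℝ) : ℂ) * (R300U.mono S : R300U.R N) z = ((evalT P (List.ofFn z) : ℝ) : ℂ) := by
  unfold dvOf
  rw [sum_collect_complex P (fun u => (mset u.1 : Finset (Fin N))) (fun u => (u.2 : ℝ))]
  unfold evalT
  have : ∀ Q : List (List Bool × ℚ), (∀ u ∈ Q, u.1.length = N) →
      (Q.map fun u => ((u.2 : ℝ) : ℂ) * (R300U.mono (mset u.1 : Finset (Fin N)) : R300U.R N) z).sum =
      (((Q.map fun u => (u.2 : ℝ) * (if hit u.1 (List.ofFn z) = true then 1 else 0)).sum : ℝ) : ℂ) := by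
    intro Q
    induction Q with
    | nil => intro _; simp
    | cons u Q ih =>
      intro hQ
      rw [List.map_cons, List.sum_cons, List.map_cons, List.sum_cons,
        ih fun v hv => hQ v (List.mem_cons_of_mem _ hv), mono_mset (hQ u List.mem_cons_self)]
      push_cast
      congr 2
      split_ifs <;> simp
  exact this P hP

theorem sum_dvOf₂ {N : ℕ} (P : List (List Bool × ℚ)) (μ : Finset (Fin N) → ℝ) :
    ∑ S, ∑ T, dvOf N P S * dvOf N P T * μ (S ∪ T) =
      (P.map fun u => (P.map fun v => (u.2 : ℝ) * v.2 * μ (mset u.1 ∪ mset v.1)).sum).sum := by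
  unfold dvOf
  exact sum_collect₂ P (fun u => (mset u.1 : Finset (Fin N))) (fun u => (u.2 : ℝ))
    (fun S T => μ (S ∪ T))

/-- shape of the terms -/
theorem terms_shape {a b n K : ℕ} {w J : List Bool} {th : ℚ} (hw : w.length ≤ n) :
    ∀ u ∈ terms a b n K w J th, u.1.length = n - w.length ∧ u.1.count true ≤ K := by
  intro u hu
  unfold terms at hu
  rcases List.mem_cons.1 hu with rfl | hu
  · refine ⟨by simp, ?_⟩
    have : (List.replicate (n - w.length) false).count true = 0 := by
      rw [List.count_eq_zero]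
      intro h
      exact absurd (List.eq_of_mem_replicate h) (by decide)
    simp only [this]
    omega
  · rw [List.mem_map] at hu
    obtain ⟨S, hS, rfl⟩ := hu
    rw [List.mem_filter, mem_masks] at hS
    refine ⟨by simp only [List.length_drop]; omega, ?_⟩
    exact (List.Sublist.count_le _ (List.drop_sublist _ _)).trans hS.1.2

/-- the trace moment after substitution of the prefix -/
theorem TT_glue_sub {a b n K : ℕ} (hab : a ≤ b) (hb : 0 < b) {w : List Bool} (hw : w.length ≤ n)
    (th : ℚ) {A : Finset ℕ} (hA : ∀ j ∈ A, j < n) (hK : A.card ≤ K)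
    (z : Fin (n - w.length) → Bool) :
    (((R300U.TT ((a : ℝ) / (b : ℝ)) A (glue w z) : ℝ) - th : ℝ) : ℂ) =
      ∑ S, ((dvOf (n - w.length) (terms a b n K w (maskOf n A) th) S : ℝ) : ℂ) *
        (R300U.mono S : R300U.R (n - w.length)) z := by
  rw [sum_dvOf_mono (fun u hu => (terms_shape hw u hu).1), TT_eq _ hA, ofFn_glue w hw,
    evalT_terms hab hb th (by rw [List.length_ofFn]; omega) (length_maskOf n A)
      (by rw [count_maskOf hA]; exact hK)]

end Crest.Agent.R300.Dec
end

-- ▼ part R300/U/DecGlue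
section

/-!
# Row 300: from `UMainStatement` and a correct decoder to S0457

* `That τ a`: empirical mean of the statistic `stat a` over the traces `τ`;
* `Ident n p K b x`: a pseudo-expectation of degree `2K` which knows the prefix before `t` and all
  trace moments of at most `K` letters up to `b` knows the letter `t`;
* `exists_budget`: with the trace budget `m`, the numbers `K = log2 m / (k1 * size n)` and
  `b = 2 ^ (-(log2 m / k2))` identify every word;
* `decoder_of_correct`: the statement S0457.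
-/

set_option autoImplicit false

namespace Crest.Agent.R300U

open Crest.FinProb Crest.TraceRecon Crest.Randomized Finset

noncomputable section

/-- The empirical mean of `stat a` over the observed traces. -/
def That {m : ℕ} (τ : Fin m → List Bool) (a : Finset ℕ) : ℝ :=
  (∑ k, stat a (τ k)) / m








theorem length_traceOf_le {n : ℕ} (x : Fin n → Bool) (keep : Fin n → Bool) :
    (traceOf x keep).length ≤ n := by
  unfold traceOf
  rw [List.length_map]
  exact (List.length_filter_le _ _).trans (by simp)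

/-- Local identification of the letters. -/
def Ident (n : ℕ) (p : ℝ) (K : ℕ) (b : ℝ) (x : Fin n → Bool) : Prop :=
  ∀ (E : PE n (2 * K)) (t : ℕ), t < n → Prefix E x t → Data E x p K b →
    E.N (dev x (xv t)) < 1 / 2

theorem Data.mono {n D : ℕ} {E : PE n D} {x : Fin n → Bool} {p : ℝ} {K K' : ℕ} {β β' : ℝ}
    (h : Data E x p K β) (hK : K' ≤ K) (hβ : β ≤ β') : Data E x p K' β' :=
  fun a ha1 ha2 => (h a (ha1.trans hK) ha2).trans hβ

/-! ### arithmetic of the budget -/

theorem le_log2_of_exp_le {m : ℕ} {y : ℝ} (h : Real.exp y ≤ m) : y - 1 ≤ (Nat.log2 m : ℝ) := by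
  have hm : (0 : ℝ) < m := lt_of_lt_of_le (Real.exp_pos _) h
  have hm' : m ≠ 0 := by rintro rfl; simp at hm
  have h1 : m < 2 ^ (Nat.log2 m + 1) := (Nat.log2_lt hm').mp (Nat.lt_succ_self _)
  have h2 : (m : ℝ) < 2 ^ (Nat.log2 m + 1) := by exact_mod_cast h1
  have h3 : y ≤ Real.log m := (Real.le_log_iff_exp_le hm).mpr h
  have h4 : Real.log m < Real.log (2 ^ (Nat.log2 m + 1)) := Real.log_lt_log hm h2
  rw [Real.log_pow] at h4
  have h5 := Real.log_two_lt_d9
  have h6 : (0 : ℝ) ≤ (Nat.log2 m : ℝ) + 1 := by positivity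
  push_cast at h4
  nlinarith

theorem size_le_log {n : ℕ} (hn : 2 ≤ n) : (Nat.size n : ℝ) ≤ 3 * Real.log n := by
  have hn0 : (0 : ℝ) < n := by positivity
  have h1 : 2 ^ (Nat.size n - 1) ≤ n := by
    by_contra hcon
    push Not at hcon
    have := Nat.size_le.mpr hcon
    have h2 : 0 < Nat.size n := Nat.size_pos.mpr (by omega)
    omega
  have h2 : 0 < Nat.size n := Nat.size_pos.mpr (by omega)
  have h3 : ((2 : ℝ) ^ (Nat.size n - 1)) ≤ n := by exact_mod_cast h1
  have h4 : Real.log ((2 : ℝ) ^ (Nat.size n - 1)) ≤ Real.log n :=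
    Real.log_le_log (by positivity) h3
  rw [Real.log_pow] at h4
  have h5 : ((Nat.size n - 1 : ℕ) : ℝ) = (Nat.size n : ℝ) - 1 := by
    rw [Nat.cast_sub (by omega)]; simp
  rw [h5] at h4
  have h6 := Real.log_two_gt_d9
  have h7 : Real.log 2 ≤ Real.log n := Real.log_le_log (by norm_num) (by exact_mod_cast hn)
  nlinarith

/-- the exponent of the budget -/
def BB (n : ℕ) (p : ℝ) : ℝ :=
  p⁻¹ * Real.log n * (1 + Real.log n / (1 + Real.log (1 / (1 - p)))) ^ 2

theorem one_le_X {n : ℕ} (hn : 2 ≤ n) {p : ℝ} (hp0 : 0 < p) (hp1 : p < 1) :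
    1 ≤ 1 + Real.log n / (1 + Real.log (1 / (1 - p))) := by
  have h1 : 0 ≤ Real.log (1 / (1 - p)) := by
    apply Real.log_nonneg
    rw [le_div_iff₀ (by linarith)]
    linarith
  have h2 : 0 ≤ Real.log n := Real.log_nonneg (by exact_mod_cast (by omega : 1 ≤ n))
  have : 0 ≤ Real.log n / (1 + Real.log (1 / (1 - p))) := div_nonneg h2 (by linarith)
  linarith

theorem BB_ge {n : ℕ} (hn : 2 ≤ n) {p : ℝ} (hp0 : 0 < p) (hp1 : p < 1) : 0.69 ≤ BB n p := by
  unfold BB
  have hX := one_le_X hn hp0 hp1
  have h7 : Real.log 2 ≤ Real.log n := Real.log_le_log (by norm_num) (by exact_mod_cast hn)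
  have h6 := Real.log_two_gt_d9
  have h8 : 1 ≤ p⁻¹ := (one_le_inv₀ hp0).mpr hp1.le
  have h9 : (1 : ℝ) ≤ (1 + Real.log n / (1 + Real.log (1 / (1 - p)))) ^ 2 :=
    one_le_pow₀ hX
  calc (0.69 : ℝ) ≤ Real.log n := by linarith
    _ ≤ p⁻¹ * Real.log n := le_mul_of_one_le_left (by linarith) h8
    _ ≤ p⁻¹ * Real.log n * (1 + Real.log n / (1 + Real.log (1 / (1 - p)))) ^ 2 :=
        le_mul_of_one_le_right (mul_nonneg (by linarith) (by linarith)) h9

theorem exp_le_traceBudget {C : ℝ} (hC : 0 ≤ C) {n : ℕ} (hn : 2 ≤ n) {p : ℝ} (hp0 : 0 < p)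
    (hp1 : p < 1) : Real.exp (C * BB n p) ≤ traceBudget C n p := by
  unfold traceBudget
  refine le_trans (Real.exp_le_exp.mpr ?_) (Nat.le_ceil _)
  refine mul_le_mul_of_nonneg_left ?_ hC
  have hX := one_le_X hn hp0 hp1
  have hB := BB_ge hn hp0 hp1
  have h1 : (1 : ℝ) ≤ (1 + Real.log (1 + Real.log n / (1 + Real.log (1 / (1 - p))))) ^ 6 := by
    apply one_le_pow₀
    have := Real.log_nonneg hX
    linarith
  have hB' : 0 ≤ BB n p := by linarith
  unfold BB at hB' ⊢
  exact le_mul_of_one_le_right hB' h1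

theorem exists_budget (hU : UMainStatement) (k1 k2 M0 : ℕ) (hk1 : 0 < k1) (hk2 : 0 < k2) :
    ∃ C : ℝ, 1 ≤ C ∧ ∀ n : ℕ, 2 ≤ n → ∀ p : ℝ, 0 < p → p < 1 →
      M0 ≤ traceBudget C n p ∧ 1 ≤ traceBudget C n p ∧
      1 ≤ Nat.log2 (traceBudget C n p) / (k1 * Nat.size n) ∧
      ∀ x : Fin n → Bool, Ident n p (Nat.log2 (traceBudget C n p) / (k1 * Nat.size n))
        ((1 / 2) ^ (Nat.log2 (traceBudget C n p) / k2)) x := by
  obtain ⟨CU, hCU1, hmain⟩ := hU
  refine ⟨3 * k1 * CU + 2 + 2 * (1 + k2) + 2 * k2 * CU + 2 * M0, ?_, ?_⟩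
  · have h1 : (0 : ℝ) ≤ 3 * k1 * CU := by positivity
    have h2 : (0 : ℝ) ≤ 2 * k2 * CU := by positivity
    have h3 : (0 : ℝ) ≤ M0 := Nat.cast_nonneg _
    have h4 : (0 : ℝ) ≤ k2 := Nat.cast_nonneg _
    linarith
  intro n hn p hp0 hp1
  set C := 3 * k1 * CU + 2 + 2 * (1 + k2) + 2 * k2 * CU + 2 * (M0 : ℝ) with hCdef
  obtain ⟨KU, hKU1, hKU, hK⟩ := hmain n p hn hp0 hp1
  have hB := BB_ge hn hp0 hp1
  have hk1' : (0 : ℝ) < k1 := by exact_mod_cast hk1
  have hk2' : (0 : ℝ) < k2 := by exact_mod_cast hk2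
  have hM0' : (0 : ℝ) ≤ M0 := Nat.cast_nonneg _
  have hC0 : 0 ≤ C := by rw [hCdef]; positivity
  have hexp := exp_le_traceBudget hC0 hn hp0 hp1
  set m := traceBudget C n p with hm
  have hL := le_log2_of_exp_le hexp
  set B := BB n p with hBdef
  have hKUB : (KU : ℝ) * Real.log n ≤ CU * B := hKU
  have hmpos : (0 : ℝ) < m := lt_of_lt_of_le (Real.exp_pos _) hexp
  have hsz := size_le_log hn
  have hlog : 0 ≤ Real.log n := Real.log_nonneg (by exact_mod_cast (by omega : 1 ≤ n))
  have hszpos : 0 < Nat.size n := Nat.size_pos.mpr (by omega)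
  have p1 : 0 ≤ k1 * CU * B := by positivity
  have p2 : 0 ≤ k2 * CU * B := by positivity
  have p3 : 0 ≤ (k2 : ℝ) * B := by positivity
  have p4 : 0 ≤ (M0 : ℝ) * B := by positivity
  have hCB : C * B = 3 * (k1 * CU * B) + 2 * B + 2 * B + 2 * (k2 * B) + 2 * (k2 * CU * B)
      + 2 * (M0 * B) := by rw [hCdef]; ring
  have hKle : KU ≤ Nat.log2 m / (k1 * Nat.size n) := by
    rw [Nat.le_div_iff_mul_le (Nat.mul_pos hk1 hszpos)]
    have : ((KU * (k1 * Nat.size n) : ℕ) : ℝ) ≤ (Nat.log2 m : ℝ) := by
      push_cast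
      have h1 : (KU : ℝ) * (k1 * Nat.size n) ≤ 3 * k1 * (KU * Real.log n) := by
        have h2 : (KU : ℝ) * (k1 * Nat.size n) ≤ KU * (k1 * (3 * Real.log n)) :=
          mul_le_mul_of_nonneg_left (mul_le_mul_of_nonneg_left hsz hk1'.le) (Nat.cast_nonneg _)
        calc (KU : ℝ) * (k1 * Nat.size n) ≤ KU * (k1 * (3 * Real.log n)) := h2
          _ = 3 * k1 * (KU * Real.log n) := by ring
      have h3 : 3 * (k1 : ℝ) * (KU * Real.log n) ≤ 3 * k1 * (CU * B) :=
        mul_le_mul_of_nonneg_left hKUB (by positivity)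
      have h4 : 3 * (k1 : ℝ) * (CU * B) = 3 * (k1 * CU * B) := by ring
      linarith
    exact_mod_cast this
  refine ⟨?_, ?_, hKU1.trans hKle, ?_⟩
  · have h1 : (M0 : ℝ) ≤ m := by
      refine le_trans ?_ hexp
      have h2 := Real.add_one_le_exp (C * B)
      nlinarith
    exact_mod_cast h1
  · have : 0 < m := by exact_mod_cast hmpos
    omega
  · intro x E t ht hpre hdat
    refine hK _ E x t (Nat.mul_le_mul_left 2 hKle) ht hpre (hdat.mono hKle ?_)
    have h1 : (1 / 2 : ℝ) ^ (Nat.log2 m / k2) = Real.exp (-(((Nat.log2 m / k2 : ℕ) : ℝ) * Real.log 2)) := by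
      rw [← Real.rpow_natCast, Real.rpow_def_of_pos (by norm_num)]
      congr 1
      rw [one_div, Real.log_inv]; ring
    rw [h1]
    refine Real.exp_le_exp.mpr (neg_le_neg ?_)
    show CU * B ≤ _
    have h2 : (Nat.log2 m : ℝ) < ((Nat.log2 m / k2 : ℕ) : ℝ) * k2 + k2 := by
      have := Nat.lt_div_mul_add (a := Nat.log2 m) hk2
      exact_mod_cast this
    have h6 := Real.log_two_gt_d9
    have h7 : (0 : ℝ) ≤ ((Nat.log2 m / k2 : ℕ) : ℝ) := Nat.cast_nonneg _
    set z : ℝ := ((Nat.log2 m / k2 : ℕ) : ℝ) with hz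
    -- k2 * z ≥ log2 m - k2 ≥ C B - 1 - k2
    have h8 : k2 * (2 * (CU * B)) ≤ k2 * z := by
      nlinarith
    have h9 : 2 * (CU * B) ≤ z := le_of_mul_le_mul_left h8 hk2'
    have h10 : 0 ≤ CU * B := by positivity
    nlinarith

/-- the union bound for the number of statistics used by the decoder -/
theorem card_idx_div_le (k1 k3 : ℕ) (hk1 : 2 ≤ k1) (hk3 : 4 ≤ k3) (n m : ℕ) (hm : 1 ≤ m) :
    ((R300.Prob.idx n (Nat.log2 m / (k1 * Nat.size n))).card : ℝ)
      / (4 * m * ((1 / 2 : ℝ) ^ (Nat.log2 m / k3)) ^ 2) ≤ 1 / 4 := by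
  set L := Nat.log2 m with hL
  set K := L / (k1 * Nat.size n) with hK
  have h1 : ((R300.Prob.idx n K).card : ℝ) ≤ ((2 : ℝ) ^ (L / 2)) := by
    have h2 := R300.Prob.card_idx_le n K
    have h3 : (n + 1) ^ K ≤ 2 ^ (L / 2) := by
      calc (n + 1) ^ K ≤ (2 ^ Nat.size n) ^ K :=
            Nat.pow_le_pow_left (Nat.lt_size_self n) K
        _ = 2 ^ (Nat.size n * K) := by rw [← pow_mul]
        _ ≤ 2 ^ (L / 2) := by
            apply Nat.pow_le_pow_right (by norm_num)
            rw [Nat.le_div_iff_mul_le (by norm_num)]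
            have h4 : K * (k1 * Nat.size n) ≤ L := Nat.div_mul_le_self _ _
            calc Nat.size n * K * 2 = K * (2 * Nat.size n) := by ring
              _ ≤ K * (k1 * Nat.size n) :=
                  Nat.mul_le_mul_left _ (Nat.mul_le_mul_right _ hk1)
              _ ≤ L := h4
    exact_mod_cast h2.trans h3
  have h5 : (2 : ℝ) ^ L ≤ m := by
    have : 2 ^ L ≤ m := Nat.log2_self_le (by omega)
    exact_mod_cast this
  have h6 : ((1 / 2 : ℝ) ^ (L / k3)) ^ 2 * 2 ^ (L / 2) ≥ 1 := by
    rw [← pow_mul]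
    have h7 : L / k3 * 2 ≤ L / 2 := by
      rw [Nat.le_div_iff_mul_le (by norm_num)]
      calc L / k3 * 2 * 2 = L / k3 * 4 := by ring
        _ ≤ L / k3 * k3 := Nat.mul_le_mul_left _ hk3
        _ ≤ L := Nat.div_mul_le_self _ _
    calc (1 : ℝ) = (1 / 2 : ℝ) ^ (L / k3 * 2) * 2 ^ (L / k3 * 2) := by
          rw [← mul_pow]; norm_num
      _ ≤ (1 / 2 : ℝ) ^ (L / k3 * 2) * 2 ^ (L / 2) := by
          apply mul_le_mul_of_nonneg_left _ (by positivity)
          exact pow_le_pow_right₀ (by norm_num) h7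
  have hβ : (0 : ℝ) < ((1 / 2 : ℝ) ^ (L / k3)) ^ 2 := by positivity
  have hm' : (0 : ℝ) < m := by exact_mod_cast hm
  rw [div_le_iff₀ (by positivity)]
  have h8 : (2 : ℝ) ^ (L / 2) ≤ m * ((1 / 2 : ℝ) ^ (L / k3)) ^ 2 := by
    have h9 : (2 : ℝ) ^ (L / 2) * 2 ^ (L / 2) ≤ 2 ^ L := by
      rw [← pow_add]
      exact pow_le_pow_right₀ (by norm_num) (by omega)
    have h10 : (0 : ℝ) < 2 ^ (L / 2) := by positivity
    have h11 : (2 : ℝ) ^ (L / 2) * 2 ^ (L / 2) ≤ m := h9.trans h5
    -- multiply h11 by β² and use h6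
    have h12 : (2 : ℝ) ^ (L / 2) * (((1 / 2 : ℝ) ^ (L / k3)) ^ 2 * 2 ^ (L / 2))
        ≤ m * ((1 / 2 : ℝ) ^ (L / k3)) ^ 2 := by
      calc (2 : ℝ) ^ (L / 2) * (((1 / 2 : ℝ) ^ (L / k3)) ^ 2 * 2 ^ (L / 2))
          = (2 : ℝ) ^ (L / 2) * 2 ^ (L / 2) * ((1 / 2 : ℝ) ^ (L / k3)) ^ 2 := by ring
        _ ≤ m * ((1 / 2 : ℝ) ^ (L / k3)) ^ 2 := mul_le_mul_of_nonneg_right h11 hβ.le
    have h13 : (2 : ℝ) ^ (L / 2) * 1
        ≤ (2 : ℝ) ^ (L / 2) * (((1 / 2 : ℝ) ^ (L / k3)) ^ 2 * 2 ^ (L / 2)) :=
      mul_le_mul_of_nonneg_left h6 h10.le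
    linarith
  linarith

/-- The statement S0457 from the main theorem and a decoder that is correct on good traces. -/
theorem decoder_of_correct (hU : UMainStatement) (k1 k2 k3 M0 : ℕ) (hk1 : 2 ≤ k1) (hk2 : 0 < k2)
    (hk3 : 4 ≤ k3) (A : List Bool × List Bool → List Bool) (r : Polynomial ℕ)
    (hPT : RandPolyTime A)
    (hA : ∀ n : ℕ, 2 ≤ n → ∀ p : ℚ, 0 < p → p < 1 → ∀ m : ℕ, M0 ≤ m → 1 ≤ m →
      1 ≤ Nat.log2 m / (k1 * Nat.size n) → ∀ (x : Fin n → Bool) (τ : Fin m → List Bool),
      (∀ k, (τ k).length ≤ n) →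
      (∀ a : Finset ℕ, a.card ≤ Nat.log2 m / (k1 * Nat.size n) → (∀ j ∈ a, j < n) →
        |That τ a - TT (p : ℝ) a x| ≤ (1 / 2) ^ (Nat.log2 m / k3)) →
      Ident n (p : ℝ) (Nat.log2 m / (k1 * Nat.size n)) ((1 / 2) ^ (Nat.log2 m / k2)) x →
      ∀ tape : List Bool, readWord n (A (decoderInput n p τ, tape)) = x) :
    ∃ C : ℝ, 1 ≤ C ∧ ∃ (A : List Bool × List Bool → List Bool) (r : Polynomial ℕ), RandPolyTime A ∧
      ∀ n : ℕ, 2 ≤ n → ∀ p : ℚ, 0 < p → p < 1 → ∀ x : Fin n → Bool,
        2 / 3 ≤ decoderSuccessProb (traceBudget C n p) p A r x := by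
  obtain ⟨C, hC1, hC⟩ := exists_budget hU k1 k2 M0 (by omega) hk2
  refine ⟨C, hC1, A, r, hPT, fun n hn p hp0 hp1 x => ?_⟩
  have hp0' : (0 : ℝ) < (p : ℝ) := by exact_mod_cast hp0
  have hp1' : (p : ℝ) < 1 := by exact_mod_cast hp1
  obtain ⟨hM0, hm1, hK1, hid⟩ := hC n hn (p : ℝ) hp0' hp1'
  set m := traceBudget C n (p : ℝ) with hm
  have hcard := card_idx_div_le k1 k3 hk1 hk3 n m hm1
  refine le_trans ?_ (R300.Prob.decoderSuccessProb_ge_of_stat (m := m) p hp0.le hp1.le A r x
    ((R300.Prob.idx n (Nat.log2 m / (k1 * Nat.size n))))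
    ((1 / 2 : ℝ) ^ (Nat.log2 m / k3)) (by positivity) (by omega) ?_)
  · linarith
  · intro keeps hk tape
    refine hA n hn p hp0 hp1 m hM0 hm1 hK1 x (fun k => traceOf x (keeps k))
      (fun k => length_traceOf_le _ _) ?_ (hid x) tape
    intro a ha1 ha2
    exact hk a (R300.Prob.mem_idx a (fun j hj => Finset.mem_range.mpr (ha2 j hj)) ha1)

end

end Crest.Agent.R300U
end

-- ▼ part R300/Dec/Step
section

/-!
# Row 300, machine side: correctness of one decoding step (modulo the output of the solver)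
-/

set_option autoImplicit false
set_option linter.dupNamespace false

namespace Crest.Agent.R300.Dec

open Crest.Agent.R300U (TT PE Prefix Data Ident dev xv mono)

theorem maskF_single {N : ℕ} (hN : 0 < N) :
    maskF ({(⟨0, hN⟩ : Fin N)} : Finset (Fin N)) = true :: List.replicate (N - 1) false := by
  refine List.ext_getElem (by simp; omega) fun i h1 h2 => ?_
  rw [getElem_maskF]
  cases i with
  | zero => simp
  | succ i =>
    simp [Fin.ext_iff]

theorem TT_glue_real {a b n K : ℕ} (hab : a ≤ b) (hb : 0 < b) {w : List Bool} (hw : w.length ≤ n)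
    (th : ℚ) {A : Finset ℕ} (hA : ∀ j ∈ A, j < n) (hK : A.card ≤ K)
    (z : Fin (n - w.length) → Bool) :
    TT ((a : ℝ) / (b : ℝ)) A (glue w z) - th =
      ∑ S, dvOf (n - w.length) (terms a b n K w (maskOf n A) th) S *
        (if ∀ i ∈ S, z i = true then 1 else 0) := by
  apply Complex.ofReal_injective
  rw [TT_glue_sub hab hb hw th hA hK z, Complex.ofReal_sum]
  refine Finset.sum_congr rfl fun S _ => ?_
  rw [Complex.ofReal_mul]
  congr 1
  unfold mono
  split_ifs <;> simp

/-- the moment vector read off the solution -/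
noncomputable def muOf (m a b n K : ℕ) (st : List (List Bool × ℚ)) (w : List Bool)
    (A : Finset (Fin (n - w.length))) : ℝ :=
  (((solOf m a b n K st w).getD (pos (masks (n - w.length) (2 * (2 * K))) (maskF A)) 0 : ℚ) : ℝ)

theorem nextBit_eq {m a b n K : ℕ} {st : List (List Bool × ℚ)} {w : List Bool}
    (hN : 0 < n - w.length) :
    nextBit m a b n K st w = true ↔ muOf m a b n K st w ∅ < 2 * muOf m a b n K st w
      {(⟨0, hN⟩ : Fin (n - w.length))} := by
  unfold nextBit muOf
  rw [decide_eq_true_iff, maskF_empty, maskF_single]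
  constructor
  · intro h; exact_mod_cast h
  · intro h; exact_mod_cast h

/-- what the solver delivers -/
structure SolOut (m a b n K : ℕ) (st : List (List Bool × ℚ)) (w : List Bool) : Prop where
  norm : |muOf m a b n K st w ∅ - 1| ≤ 3 / (m : ℝ)
  psd : ∀ c : Finset (Fin (n - w.length)) → ℝ, (∀ S, 2 * K < S.card → c S = 0) →
      -(1 / (m : ℝ)) * ∑ S, c S ^ 2 ≤ ∑ S, ∑ T, c S * c T * muOf m a b n K st w (S ∪ T)
  data : ∀ Jt ∈ st, |((terms a b n K w Jt.1 Jt.2).map fun u =>
      ((terms a b n K w Jt.1 Jt.2).map fun v =>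
        (u.2 : ℝ) * v.2 * muOf m a b n K st w (mset u.1 ∪ mset v.1)).sum).sum| ≤
          3 * ((parTol m : ℚ) : ℝ)

theorem parTol_eq (m : ℕ) : ((parTol m : ℚ) : ℝ) = ((1 / 2 : ℝ) ^ (Nat.log 2 m / 8)) ^ 2 := by
  unfold parTol
  push_cast
  rw [one_div, one_div, inv_pow, inv_pow, ← pow_mul, mul_comm]

theorem nextBit_of_solOut {n m K a b : ℕ} (hab : a ≤ b) (hb : 0 < b) (hK : 1 ≤ K)
    (hpow : (n + 1) ^ (64 * K) ≤ 2 ^ Nat.log 2 m) (hL : 10000 ≤ Nat.log 2 m)
    (x : Fin n → Bool) (Ys : List (List Bool))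
    (hstat : ∀ A : Finset ℕ, A.card ≤ K → (∀ j ∈ A, j < n) →
      0 ≤ ((emp (maskOf n A) Ys : ℚ) : ℝ) ∧ ((emp (maskOf n A) Ys : ℚ) : ℝ) ≤ 1 ∧
      |((emp (maskOf n A) Ys : ℚ) : ℝ) - TT ((a : ℝ) / (b : ℝ)) A x| ≤
        (1 / 2 : ℝ) ^ (Nat.log 2 m / 8))
    (hId : Ident n ((a : ℝ) / (b : ℝ)) K ((1 / 2) ^ (Nat.log 2 m / 9)) x)
    (w : List Bool) (hwx : ∀ i : Fin n, (i : ℕ) < w.length → w.getD i false = x i)
    (ht : w.length < n) (hS : SolOut m a b n K (statsOf n K Ys) w) :
    nextBit m a b n K (statsOf n K Ys) w = x ⟨w.length, ht⟩ := by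
  have hm : 1 ≤ m := by
    by_contra h
    have : m = 0 := by omega
    subst this
    simp at hL
  have hN : 0 < n - w.length := by omega
  have hbR : (0 : ℝ) < b := by exact_mod_cast hb
  have key := R300U.step_sound_of (x := x) (t := w.length) (N := n - w.length) (by omega)
    (fun N D μ ε hε h0 hpsd hδ => by
      have := R300U.exists_PE (N := N) (D := D) μ ε hε h0 hpsd (by exact_mod_cast hδ)
      exact_mod_cast this)
    (K := K) (m := m) hK ht (p := (a : ℝ) / (b : ℝ)) (by positivity)
    (by rw [div_le_one hbR]; exact_mod_cast hab) (β₁ := (1 / 2 : ℝ) ^ (Nat.log 2 m / 8))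
    (by positivity) (pow_le_one₀ (by norm_num) (by norm_num))
    (fun E hP hD => hId E w.length ht hP (hD.mono le_rfl (eight_beta_le hL)))
    (mu := muOf m a b n K (statsOf n K Ys) w) (three_div_le hL) hS.norm hS.psd
    (by
      have := delta_le (n := n) (N := n - w.length) (m := m) (K := K) (by omega) (by omega) hm hpow hL
      rw [show 2 * (2 * K) = 4 * K by ring] at this
      exact this)
    (gl := glue w)
    (fun y i hi => by unfold glue; rw [dif_pos hi]; exact hwx i hi)
    (fun y i hi => by unfold glue; rw [dif_neg hi])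
    (co := fun A S => dvOf (n - w.length) (terms a b n K w (maskOf n A) (emp (maskOf n A) Ys)) S +
      if S = ∅ then ((emp (maskOf n A) Ys : ℚ) : ℝ) else 0)
    (That := fun A => ((emp (maskOf n A) Ys : ℚ) : ℝ))
    (fun A _ _ S hS' => by
      have h1 := dvOf_eq_zero (N := n - w.length) (K := K)
        (terms_shape (a := a) (b := b) (K := K) (J := maskOf n A) (th := emp (maskOf n A) Ys)
          (n := n) (w := w) (by omega)) S hS'
      have h2 : S ≠ ∅ := by
        rintro rfl
        simp at hS'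
      simp only [h1, if_neg h2, add_zero])
    (fun A hA1 hA2 y => by
      have h1 := TT_glue_real hab hb (w := w) (by omega) (emp (maskOf n A) Ys) hA2 hA1 y
      have h2 : TT ((a : ℝ) / (b : ℝ)) A (glue w y) = ((emp (maskOf n A) Ys : ℚ) : ℝ) +
          ∑ S, dvOf (n - w.length) (terms a b n K w (maskOf n A) (emp (maskOf n A) Ys)) S *
          (if ∀ i ∈ S, y i = true then 1 else 0) := by linarith
      rw [h2]
      simp only [add_mul, Finset.sum_add_distrib]
      rw [add_comm]
      congr 1
      rw [Finset.sum_eq_single ∅]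
      · simp
      · intro S _ hS'; rw [if_neg hS']; simp
      · simp)
    (fun A hA1 hA2 => hstat A hA1 hA2)
    (fun A hA1 hA2 => by
      have h1 := hS.data (maskOf n A, emp (maskOf n A) Ys) (by
        unfold statsOf
        rw [List.mem_map]
        exact ⟨maskOf n A, mem_masks.2 ⟨length_maskOf n A, by rw [count_maskOf hA2]; exact hA1⟩, rfl⟩)
      rw [← sum_dvOf₂, parTol_eq] at h1
      simpa only [add_sub_cancel_right] using h1)
    hN
  rw [← nextBit_eq hN] at key
  cases hb1 : nextBit m a b n K (statsOf n K Ys) w <;> cases hx : x ⟨w.length, ht⟩ <;>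
    simp_all

end Crest.Agent.R300.Dec
end

-- ▼ part R300/U/DecParam
section

/-!
Row 300, machine side: parameter arithmetic (owner helper899).
-/
set_option autoImplicit false

namespace Crest.Agent.R300U.DecParam

open Crest.TraceRecon

/-- the exponent `p⁻¹ log n X²` of the upper bound -/
noncomputable def Bx (n : ℕ) (p : ℝ) : ℝ :=
  p⁻¹ * Real.log n * (1 + Real.log n / (1 + Real.log (1 / (1 - p)))) ^ 2

section

variable {n m : ℕ} {p C C0 : ℝ}













theorem succ_le_two_pow_size (n : ℕ) : n + 1 ≤ 2 ^ Nat.size n := Nat.lt_size_self n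

/-- `(n+1)^{c K} ≤ 2^{c (Λ/64)}` for `K = Λ / (64 size n)` -/
theorem pow_K_le (n Λ c : ℕ) :
    (n + 1) ^ (c * (Λ / (64 * Nat.size n))) ≤ 2 ^ (c * (Λ / 64)) := by
  calc (n + 1) ^ (c * (Λ / (64 * Nat.size n)))
      ≤ (2 ^ Nat.size n) ^ (c * (Λ / (64 * Nat.size n))) :=
        Nat.pow_le_pow_left (succ_le_two_pow_size n) _
    _ = 2 ^ (c * (Nat.size n * (Λ / 64 / Nat.size n))) := by
        rw [← pow_mul, Nat.div_div_eq_div_mul]; ring_nf
    _ ≤ 2 ^ (c * (Λ / 64)) :=
        Nat.pow_le_pow_right (by norm_num) (Nat.mul_le_mul_left _ (Nat.mul_div_le _ _))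




end

end Crest.Agent.R300U.DecParam
end

-- ▼ part R300/Dec/Param
section

/-!
# Row 300, machine side: parameters and row norms (owner helper899)
-/

set_option autoImplicit false
set_option linter.dupNamespace false

namespace Crest.Agent.R300.Dec

open Crest.Agent.Lib.PT Crest.TraceRecon
open Crest.Agent.R300U.DecParam

/-! ### real parameters -/


theorem pow_parK_le (n m : ℕ) (_hm : 1 ≤ m) : (n + 1) ^ (64 * parK n m) ≤ 2 ^ Nat.log 2 m :=
  (pow_K_le n (Nat.log 2 m) 64).trans
    (Nat.pow_le_pow_right (by norm_num) (Nat.mul_div_le _ _))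

/-! ### row norms -/

theorem abs_list_sum_le (l : List ℚ) : |l.sum| ≤ (l.map fun x => |x|).sum := by
  induction l with
  | nil => simp
  | cons a l ih =>
    rw [List.sum_cons, List.map_cons, List.sum_cons]
    exact (abs_add_le _ _).trans (add_le_add le_rfl ih)

theorem sum_abs_nonneg (l : List ℚ) : 0 ≤ (l.map fun x => |x|).sum := by
  apply List.sum_nonneg
  intro x hx
  rw [List.mem_map] at hx
  obtain ⟨y, _, rfl⟩ := hx
  exact abs_nonneg y

theorem dotQ_self_le (l : List ℚ) : dotQ l l ≤ ((l.map fun x => |x|).sum) ^ 2 := by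
  unfold dotQ
  induction l with
  | nil => simp
  | cons a l ih =>
    rw [List.zipWith_cons_cons, List.sum_cons, List.map_cons, List.sum_cons]
    have h1 := sum_abs_nonneg l
    have h2 := abs_nonneg a
    have h3 : a * a = |a| * |a| := (abs_mul_abs_self a).symm
    nlinarith [mul_nonneg h2 h1]

/-- distributing a list over the keys of a duplicate-free list -/
theorem sum_filter_key_le (ms : List (List Bool)) (hms : ms.Nodup) (Q : List (ℚ × List Bool)) :
    (ms.map fun R => (((Q.filter fun v => decide (v.2 = R)).map fun v => |v.1|).sum)).sum ≤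
      (Q.map fun v => |v.1|).sum := by
  induction Q with
  | nil => simp
  | cons q Q ih =>
    rw [List.map_cons, List.sum_cons]
    have h1 : ∀ R : List Bool,
        ((((q :: Q).filter fun v => decide (v.2 = R)).map fun v => |v.1|).sum) =
          (if q.2 = R then |q.1| else 0) +
            (((Q.filter fun v => decide (v.2 = R)).map fun v => |v.1|).sum) := by
      intro R
      rw [List.filter_cons]
      by_cases h : q.2 = R
      · rw [if_pos (decide_eq_true h), if_pos h, List.map_cons, List.sum_cons]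
      · rw [if_neg (by simpa using h), if_neg h, zero_add]
    rw [List.map_congr_left (fun R _ => h1 R), List.sum_map_add]
    refine add_le_add ?_ ih
    clear ih h1
    induction ms with
    | nil => simp
    | cons R l ihl =>
      rw [List.nodup_cons] at hms
      rw [List.map_cons, List.sum_cons]
      by_cases h : q.2 = R
      · rw [if_pos h]
        have : (l.map fun R => if q.2 = R then |q.1| else 0).sum = 0 := by
          apply List.sum_eq_zero
          intro x hx
          rw [List.mem_map] at hx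
          obtain ⟨R', hR', rfl⟩ := hx
          rw [if_neg]
          intro e
          exact hms.1 (by rw [← h, e]; exact hR')
        rw [this, add_zero]
      · rw [if_neg h, zero_add]
        exact ihl hms.2

theorem sum_abs_rowOf_le (N d : ℕ) (P : List (List Bool × ℚ)) :
    ((rowOf N d P).map fun x => |x|).sum ≤ ((P.map fun u => |u.2|).sum) ^ 2 := by
  unfold rowOf
  rw [List.map_map]
  have h3 : ∀ R : List Bool, (P.flatMap fun u => (P.filter fun v => decide (orL u.1 v.1 = R)).map
      fun v => u.2 * v.2) = (((P.flatMap fun u => P.map fun v => (u.2 * v.2, orL u.1 v.1)).filter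
        fun v => decide (v.2 = R)).map fun v => v.1) := by
    intro R
    rw [List.filter_flatMap, List.map_flatMap]
    congr 1
    funext u
    rw [List.filter_map, List.map_map]
    rfl
  have h4 : ((masks N d).map ((fun x => |x|) ∘ fun R => (P.flatMap fun u =>
      (P.filter fun v => decide (orL u.1 v.1 = R)).map fun v => u.2 * v.2).sum)).sum ≤
      ((masks N d).map fun R =>
        ((((P.flatMap fun u => P.map fun v => (u.2 * v.2, orL u.1 v.1)).filter
          fun v => decide (v.2 = R)).map fun v => |v.1|).sum)).sum := by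
    refine List.sum_le_sum fun R _ => ?_
    simp only [Function.comp_apply]
    rw [h3 R]
    refine (abs_list_sum_le _).trans (le_of_eq ?_)
    rw [List.map_map]
    rfl
  refine h4.trans ((sum_filter_key_le _ (nodup_masks N d) _).trans (le_of_eq ?_))
  rw [List.map_flatMap, List.flatMap_def, List.sum_flatten, List.map_map]
  have h5 : (List.sum ∘ fun u : List Bool × ℚ =>
      (P.map fun v => (u.2 * v.2, orL u.1 v.1)).map fun v => |v.1|) =
      fun u => |u.2| * (P.map fun v => |v.2|).sum := by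
    funext u
    simp only [Function.comp_apply]
    rw [List.map_map, ← List.sum_map_mul_left]
    congr 1
    refine List.map_congr_left fun v _ => ?_
    simp only [Function.comp_apply]
    rw [abs_mul]
  rw [h5, List.sum_map_mul_right, sq]

theorem sum_abs_snd_nonneg (P : List (List Bool × ℚ)) : 0 ≤ (P.map fun u => |u.2|).sum := by
  apply List.sum_nonneg
  intro x hx
  rw [List.mem_map] at hx
  obtain ⟨y, _, rfl⟩ := hx
  exact abs_nonneg _

/-- the Euclidean norm of a row -/
theorem dotQ_rowOf_le (N d : ℕ) (P : List (List Bool × ℚ)) (B : ℚ)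
    (hB : (P.map fun u => |u.2|).sum ≤ B) : dotQ (rowOf N d P) (rowOf N d P) ≤ B ^ 4 := by
  have h1 := dotQ_self_le (rowOf N d P)
  have h2 := sum_abs_rowOf_le N d P
  have h3 := sum_abs_nonneg (rowOf N d P)
  have h4 := sum_abs_snd_nonneg P
  calc dotQ (rowOf N d P) (rowOf N d P) ≤ (((rowOf N d P).map fun x => |x|).sum) ^ 2 := h1
    _ ≤ (((P.map fun u => |u.2|).sum) ^ 2) ^ 2 := pow_le_pow_left₀ h3 h2 2
    _ = ((P.map fun u => |u.2|).sum) ^ 4 := by ring
    _ ≤ B ^ 4 := pow_le_pow_left₀ h4 hB 4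

theorem sum_abs_terms_le {a b n K : ℕ} (hab : a ≤ b) (hb : 0 < b) (w J : List Bool) {th : ℚ}
    (h0 : 0 ≤ th) (h1 : th ≤ 1) (hJ : J.length = n) :
    ((terms a b n K w J th).map fun u => |u.2|).sum ≤ 1 + ((n + 1 : ℕ) : ℚ) ^ K := by
  unfold terms
  rw [List.map_cons, List.sum_cons, List.map_map]
  refine add_le_add ?_ ?_
  · rw [abs_neg, abs_of_nonneg h0]; exact h1
  · have hbq : (0 : ℚ) < (b : ℚ) ^ n := by positivity
    have h2 : ∀ S ∈ (masks n K).filter fun S => hit (S.take w.length) w,
        ((fun u : List Bool × ℚ => |u.2|) ∘ fun S : List Bool =>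
          (S.drop w.length, (EcDP a (b - a) S J : ℚ) / (b : ℚ) ^ n)) S ≤ 1 := by
      intro S hS
      simp only [Function.comp_apply]
      have hSn : S.length = n := (mem_masks.1 (List.mem_of_mem_filter hS)).1
      rw [EcDP_eq a (b - a) (by omega : S.length ≤ J.length), abs_of_nonneg (by positivity),
        div_le_one hbq]
      have h3 := Ec_le a (b - a) S J
      rw [hSn, Nat.add_sub_cancel' hab] at h3
      exact_mod_cast h3
    have h4 : (((masks n K).filter fun S => hit (S.take w.length) w).map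
        ((fun u : List Bool × ℚ => |u.2|) ∘ fun S : List Bool =>
          (S.drop w.length, (EcDP a (b - a) S J : ℚ) / (b : ℚ) ^ n))).sum ≤
        (((masks n K).filter fun S => hit (S.take w.length) w).map fun _ => (1 : ℚ)).sum :=
      List.sum_le_sum h2
    refine h4.trans ?_
    rw [List.map_const', List.sum_replicate, nsmul_eq_mul, mul_one]
    have h5 : ((masks n K).filter fun S => hit (S.take w.length) w).length ≤ (n + 1) ^ K :=
      (List.length_filter_le _ _).trans (length_masks_le n K)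
    exact_mod_cast h5

end Crest.Agent.R300.Dec
end

-- ▼ part R300/Dec/SolOut
section

/-!
# Row 300, machine side: what the solver returns
-/

set_option autoImplicit false
set_option linter.dupNamespace false

namespace Crest.Agent.R300.Dec

open Finset

/-! ### lists and sums -/

theorem sum_range_getD' {α : Type} (L : List α) (a : α) (g : α → ℝ) :
    ∑ k ∈ range L.length, g (L.getD k a) = (L.map g).sum := by
  induction L with
  | nil => simp
  | cons x L ih =>
    rw [List.length_cons, Finset.sum_range_succ', List.map_cons, List.sum_cons, ← ih]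
    simp [add_comm]

theorem sum_zip_getD {α : Type} (L : List α) (a : α) (row : List ℚ) (h : row.length = L.length)
    (μ : α → ℝ) : ∑ k ∈ range L.length, (row.getD k 0 : ℝ) * μ (L.getD k a)
      = (List.zipWith (fun (r : ℚ) (R : α) => (r : ℝ) * μ R) row L).sum := by
  induction L generalizing row with
  | nil =>
    have : row = [] := List.length_eq_zero_iff.1 h
    subst this; simp
  | cons x L ih =>
    cases row with
    | nil => simp at h
    | cons r row =>
      rw [List.length_cons, Finset.sum_range_succ', List.zipWith_cons_cons, List.sum_cons,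
        ← ih row (by simpa using h)]
      simp [add_comm]

theorem pos_getElem {l : List (List Bool)} (hl : l.Nodup) {k : ℕ} (hk : k < l.length) :
    pos l l[k] = k := by
  have h1 : pos l l[k] < l.length := pos_lt (List.getElem_mem hk)
  have h2 := getD_pos (List.getElem_mem hk)
  rw [List.getD_eq_getElem _ _ h1] at h2
  exact (List.Nodup.getElem_inj_iff hl).1 h2


theorem orL_comm (u v : List Bool) : orL u v = orL v u := by
  unfold orL
  rw [List.zipWith_comm]
  congr 1
  funext a b
  exact Bool.or_comm _ _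

/-! ### masks of the terms -/

theorem terms_masks {a b n K : ℕ} {w J : List Bool} {th : ℚ} (_hw : w.length ≤ n)
    {u : List Bool × ℚ} (hu : u ∈ terms a b n K w J th) :
    u.1.length = n - w.length ∧ u.1.count true ≤ K := by
  unfold terms at hu
  rcases List.mem_cons.1 hu with rfl | hu
  · simp [List.count_replicate]
  · rw [List.mem_map] at hu
    obtain ⟨S, hS, rfl⟩ := hu
    have hS' := mem_masks.1 (List.mem_of_mem_filter hS)
    refine ⟨by simp [hS'.1], ?_⟩
    exact ((List.drop_sublist _ _).count_le _).trans hS'.2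

theorem terms_orL_mem {a b n K : ℕ} {w J : List Bool} {th : ℚ} (hw : w.length ≤ n) :
    ∀ u ∈ terms a b n K w J th, ∀ v ∈ terms a b n K w J th,
      orL u.1 v.1 ∈ masks (n - w.length) (2 * (2 * K)) := by
  intro u hu v hv
  have h1 := terms_masks hw hu
  have h2 := terms_masks hw hv
  rw [mem_masks]
  refine ⟨length_orL h1.1 h2.1, ?_⟩
  have := count_orL_le u.1 v.1
  omega

/-! ### the moment vector -/

/-- the moments of a solution, as a function of masks -/
noncomputable def muL (N d : ℕ) (v : List ℚ) (R : List Bool) : ℝ :=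
  ((v.getD (pos (masks N d) R) 0 : ℚ) : ℝ)

theorem dotQ_eq_mu {N d : ℕ} {v row : List ℚ} (hv : v.length = (masks N d).length)
    (hr : row.length = (masks N d).length) :
    ((dotQ row v : ℚ) : ℝ)
      = (List.zipWith (fun (r : ℚ) (R : List Bool) => (r : ℝ) * muL N d v R) row (masks N d)).sum := by
  rw [dotQ_eq hr hv, ← sum_zip_getD (masks N d) [] row hr]
  push_cast
  refine Finset.sum_congr rfl fun k hk => ?_
  have hk' : k < (masks N d).length := Finset.mem_range.1 hk
  unfold muL
  rw [List.getD_eq_getElem (masks N d) _ hk', pos_getElem (nodup_masks N d) hk']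

/-- the row of the square against the moments of a solution -/
theorem dotQ_rowOf {N d : ℕ} {v : List ℚ} (hv : v.length = (masks N d).length)
    {P : List (List Bool × ℚ)} (hP : ∀ u ∈ P, ∀ v ∈ P, orL u.1 v.1 ∈ masks N d) :
    ((dotQ (rowOf N d P) v : ℚ) : ℝ)
      = (P.map fun u => (P.map fun v' => ((u.2 : ℝ) * v'.2) * muL N d v (orL u.1 v'.1)).sum).sum := by
  rw [dotQ_eq_mu hv (length_rowOf N d P), sum_rowOf hP]

theorem unitRow_sum {N d : ℕ} (μ : List Bool → ℝ) :
    (List.zipWith (fun (r : ℚ) (R : List Bool) => (r : ℝ) * μ R) (unitRow N d) (masks N d)).sum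
      = μ (List.replicate N false) := by
  unfold unitRow
  rw [List.zipWith_map_left, zipWith_diag]
  have hmem : List.replicate N false ∈ masks N d := by
    rw [mem_masks]; simp [List.count_replicate]
  have hnd := nodup_masks N d
  revert hmem hnd
  generalize masks N d = l
  generalize List.replicate N false = e
  intro hmem hnd
  induction l with
  | nil => simp at hmem
  | cons R l ih =>
    rw [List.nodup_cons] at hnd
    rw [List.map_cons, List.sum_cons]
    by_cases h : R = e
    · subst h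
      have : (l.map fun a => (((if a = R then (1 : ℚ) else 0) : ℚ) : ℝ) * μ a).sum = 0 := by
        apply List.sum_eq_zero
        intro x hx
        rw [List.mem_map] at hx
        obtain ⟨a, ha, rfl⟩ := hx
        have hne : a ≠ R := fun h => hnd.1 (by rw [← h]; exact ha)
        rw [if_neg hne]
        simp
      rw [this]
      simp
    · rw [ih ((List.mem_cons.1 hmem).resolve_left fun e' => h e'.symm) hnd.2, if_neg h]
      simp

theorem length_unitRow (N d : ℕ) : (unitRow N d).length = (masks N d).length := by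
  unfold unitRow; rw [List.length_map]

theorem dotQ_unitRow {N d : ℕ} {v : List ℚ} (hv : v.length = (masks N d).length) :
    ((dotQ (unitRow N d) v : ℚ) : ℝ) = muL N d v (List.replicate N false) := by
  rw [dotQ_eq_mu hv (length_unitRow N d), unitRow_sum]

/-! ### the index table -/

theorem idxTab_length (N D : ℕ) : (idxTab N D).length = (masks N D).length := by
  unfold idxTab; rw [List.length_map]

theorem idxf_idxTab {N D i j : ℕ} (hi : i < (masks N D).length) (hj : j < (masks N D).length) :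
    idxf (idxTab N D) i j
      = pos (masks N (2 * D)) (orL ((masks N D).getD i []) ((masks N D).getD j [])) := by
  unfold idxf idxTab
  rw [List.getD_eq_getElem (List.map _ _) _ (by simpa using hi), List.getElem_map,
    List.getD_eq_getElem (List.map _ _) _ (by simpa using hj), List.getElem_map,
    List.getD_eq_getElem _ _ hi, List.getD_eq_getElem _ _ hj]

theorem orL_mem {N D : ℕ} {S T : List Bool} (hS : S ∈ masks N D) (hT : T ∈ masks N D) :
    orL S T ∈ masks N (2 * D) := by
  rw [mem_masks] at *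
  refine ⟨length_orL hS.1 hT.1, ?_⟩
  have := count_orL_le S T
  omega

theorem getD_mem_of_lt {α : Type} {l : List α} {i : ℕ} {a : α} (h : i < l.length) :
    l.getD i a ∈ l := by
  rw [List.getD_eq_getElem _ _ h]
  exact List.getElem_mem h

theorem idxTab_ok (N D : ℕ) : ∀ i < (idxTab N D).length, ∀ j < (idxTab N D).length,
    idxf (idxTab N D) i j < (masks N (2 * D)).length ∧
      idxf (idxTab N D) i j = idxf (idxTab N D) j i := by
  intro i hi j hj
  rw [idxTab_length] at hi hj
  rw [idxf_idxTab hi hj, idxf_idxTab hj hi, orL_comm]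
  exact ⟨pos_lt (orL_mem (getD_mem_of_lt hj) (getD_mem_of_lt hi)), rfl⟩

/-! ### the true solution -/

/-- moments of the word `z` -/
noncomputable def uTrue (N d : ℕ) (z : List Bool) (k : ℕ) : ℝ :=
  if hit ((masks N d).getD k []) z = true then 1 else 0

theorem uTrue_pos {N d : ℕ} {R z : List Bool} (hR : R ∈ masks N d) :
    uTrue N d z (pos (masks N d) R) = if hit R z = true then 1 else 0 := by
  unfold uTrue
  rw [getD_pos hR]

theorem uTrue_abs (N d : ℕ) (z : List Bool) (k : ℕ) : |uTrue N d z k| ≤ 1 := by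
  unfold uTrue
  split_ifs <;> simp

theorem uTrue_psd (N D : ℕ) (z : List Bool) (c : ℕ → ℝ) :
    0 ≤ ∑ i ∈ range (idxTab N D).length, ∑ j ∈ range (idxTab N D).length,
      c i * c j * uTrue N (2 * D) z (idxf (idxTab N D) i j) := by
  have h : ∑ i ∈ range (idxTab N D).length, ∑ j ∈ range (idxTab N D).length,
      c i * c j * uTrue N (2 * D) z (idxf (idxTab N D) i j)
      = (∑ i ∈ range (idxTab N D).length, c i * (if hit ((masks N D).getD i []) z = true then 1 else 0)) ^ 2 := by
    rw [sq, Finset.sum_mul_sum]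
    refine Finset.sum_congr rfl fun i hi => Finset.sum_congr rfl fun j hj => ?_
    rw [Finset.mem_range, idxTab_length] at hi hj
    have hSi := getD_mem_of_lt (a := ([] : List Bool)) hi
    have hSj := getD_mem_of_lt (a := ([] : List Bool)) hj
    rw [idxf_idxTab hi hj, uTrue_pos (orL_mem hSi hSj),
      hit_orL ((mem_masks.1 hSi).1.trans (mem_masks.1 hSj).1.symm)]
    cases hit ((masks N D).getD i []) z <;> cases hit ((masks N D).getD j []) z <;> simp
  rw [h]
  exact sq_nonneg _

theorem uTrue_row {N d : ℕ} {row : List ℚ} (hr : row.length = (masks N d).length) (z : List Bool) :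
    ∑ k ∈ range (masks N d).length, (row.getD k 0 : ℝ) * uTrue N d z k
      = (List.zipWith (fun (r : ℚ) (R : List Bool) => (r : ℝ) * (if hit R z = true then 1 else 0))
          row (masks N d)).sum := by
  rw [← sum_zip_getD (masks N d) [] row hr]
  rfl

theorem uTrue_rowOf {N d : ℕ} {P : List (List Bool × ℚ)}
    (hP : ∀ u ∈ P, ∀ v ∈ P, orL u.1 v.1 ∈ masks N d) (hP1 : ∀ u ∈ P, u.1.length = N) (z : List Bool) :
    ∑ k ∈ range (masks N d).length, ((rowOf N d P).getD k 0 : ℝ) * uTrue N d z k = evalT P z ^ 2 := by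
  rw [uTrue_row (length_rowOf N d P), sum_rowOf hP]
  unfold evalT
  rw [sq, ← List.sum_map_mul_left]
  congr 1
  refine List.map_congr_left fun u hu => ?_
  rw [mul_comm (List.sum _) _, ← List.sum_map_mul_left]
  congr 1
  refine List.map_congr_left fun v hv => ?_
  rw [hit_orL ((hP1 u hu).trans (hP1 v hv).symm)]
  cases hit u.1 z <;> cases hit v.1 z <;> simp

/-! ### sizes -/

theorem parTol_ge {m : ℕ} (hm : 1 ≤ m) : 1 / (m : ℚ) ≤ parTol m := by
  unfold parTol
  have h1 : 2 ^ (2 * (Nat.log 2 m / 8)) ≤ m := by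
    refine le_trans (Nat.pow_le_pow_right (by norm_num) ?_) (Nat.pow_log_le_self 2 (by omega))
    omega
  have h2 : ((2 : ℚ) ^ (2 * (Nat.log 2 m / 8))) ≤ m := by exact_mod_cast h1
  exact one_div_le_one_div_of_le (by positivity) h2

theorem pow_bounds {n m K : ℕ} (hK : (n + 1) ^ (64 * K) ≤ 2 ^ Nat.log 2 m)
    (hm : 10000 ≤ Nat.log 2 m) : 1 ≤ m ∧ (n + 1) ^ (4 * K) ≤ m ∧ (1 + (n + 1) ^ K) ^ 4 ≤ m := by
  have hm1 : 1 ≤ m := by
    rcases Nat.eq_zero_or_pos m with h | h
    · subst h; simp at hm
    · exact h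
  have h2 : 2 ^ Nat.log 2 m ≤ m := Nat.pow_log_le_self 2 (by omega)
  have h3 : (n + 1) ^ (64 * K) ≤ m := hK.trans h2
  refine ⟨hm1, le_trans (Nat.pow_le_pow_right (by omega) (by omega)) h3, ?_⟩
  set x := (n + 1) ^ K with hx
  have hx1 : 1 ≤ x := Nat.one_le_pow _ _ (by omega)
  have e : (n + 1) ^ (64 * K) = x ^ 64 := by rw [hx, ← pow_mul, mul_comm K 64]
  rcases Nat.lt_or_ge x 2 with h | h
  · have : x = 1 := by omega
    rw [this]
    calc (1 + 1) ^ 4 ≤ 2 ^ Nat.log 2 m := by
          have : (2 : ℕ) ^ 4 ≤ 2 ^ Nat.log 2 m := Nat.pow_le_pow_right (by norm_num) (by omega)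
          simpa using this
      _ ≤ m := h2
  · calc (1 + x) ^ 4 ≤ (x * x) ^ 4 := Nat.pow_le_pow_left (by nlinarith) 4
      _ = x ^ 8 := by ring
      _ ≤ x ^ 64 := Nat.pow_le_pow_right (by omega) (by norm_num)
      _ ≤ m := by rw [← e]; exact h3

theorem dotQ_unitRow_self (N d : ℕ) : ((dotQ (unitRow N d) (unitRow N d) : ℚ) : ℝ) = 1 := by
  rw [dotQ_unitRow (length_unitRow N d)]
  unfold muL unitRow
  have hmem : List.replicate N false ∈ masks N d := by
    rw [mem_masks]; simp [List.count_replicate]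
  have hp := pos_lt hmem
  rw [List.getD_eq_getElem _ _ (by simpa using hp), List.getElem_map]
  have := getD_pos hmem
  rw [List.getD_eq_getElem _ _ hp] at this
  rw [if_pos this]
  norm_num

/-- **the output of the solver, in terms of masks** -/
theorem solOut_masks {m a b n K : ℕ} {st : List (List Bool × ℚ)} {w z : List Bool}
    (hw : w.length + z.length = n) (hab : a ≤ b) (hb : 0 < b)
    (hst : ∀ Jt ∈ st, Jt.1.length = n ∧ Jt.1.count true ≤ K ∧
      ((Jt.2 : ℝ) - eT ((a : ℝ) / (b : ℝ)) (w ++ z) Jt.1) ^ 2 ≤ parTol m)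
    (hrow : ∀ Jt ∈ st, dotQ (rowOf (n - w.length) (2 * (2 * K)) (terms a b n K w Jt.1 Jt.2))
      (rowOf (n - w.length) (2 * (2 * K)) (terms a b n K w Jt.1 Jt.2)) ≤ (m : ℚ))
    (hK : (n + 1) ^ (64 * K) ≤ 2 ^ Nat.log 2 m) (hm : 10000 ≤ Nat.log 2 m) :
    |muL (n - w.length) (2 * (2 * K)) (solOf m a b n K st w)
        (List.replicate (n - w.length) false) - 1| ≤ 3 / m ∧
    (∀ R, |muL (n - w.length) (2 * (2 * K)) (solOf m a b n K st w) R| ≤ 1) ∧
    (∀ c : List Bool → ℝ, -(1 / (m : ℝ)) * ((masks (n - w.length) (2 * K)).map fun S => c S ^ 2).sum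
      ≤ ((masks (n - w.length) (2 * K)).map fun S => ((masks (n - w.length) (2 * K)).map fun T =>
          c S * c T * muL (n - w.length) (2 * (2 * K)) (solOf m a b n K st w) (orL S T)).sum).sum) ∧
    (∀ Jt ∈ st, |((terms a b n K w Jt.1 Jt.2).map fun u => ((terms a b n K w Jt.1 Jt.2).map fun v =>
      ((u.2 : ℝ) * v.2) * muL (n - w.length) (2 * (2 * K)) (solOf m a b n K st w)
        (orL u.1 v.1)).sum).sum| ≤ 3 * parTol m) := by
  obtain ⟨hm1, hm2, hm3⟩ := pow_bounds hK hm
  set N := n - w.length with hN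
  have hwn : w.length ≤ n := by omega
  have hz : z.length = N := by omega
  have hNn : N ≤ n := by omega
  have hmr : (0 : ℝ) < m := by exact_mod_cast hm1
  have hlenK : (masks N (2 * (2 * K))).length ≤ m := by
    refine (length_masks_le _ _).trans ?_
    refine le_trans (Nat.pow_le_pow_left (by omega : N + 1 ≤ n + 1) _) ?_
    have : 2 * (2 * K) = 4 * K := by ring
    rw [this]; exact hm2
  have hlenD : (idxTab N (2 * K)).length ≤ m := by
    rw [idxTab_length]
    refine (length_masks_le _ _).trans ?_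
    refine le_trans (Nat.pow_le_pow_left (by omega : N + 1 ≤ n + 1) _) ?_
    exact le_trans (Nat.pow_le_pow_right (by omega) (by omega : 2 * K ≤ 4 * K)) hm2
  have hP : ∀ Jt : List Bool × ℚ, ∀ u ∈ terms a b n K w Jt.1 Jt.2, ∀ v ∈ terms a b n K w Jt.1 Jt.2,
      orL u.1 v.1 ∈ masks N (2 * (2 * K)) := fun Jt => terms_orL_mem hwn
  have hspec := sdpRun_spec (G := m) (K := (masks N (2 * (2 * K))).length)
    (idx := idxTab N (2 * K)) (cons := consOf m a b n K st w) hm1 hlenK hlenD
    (by
      intro c hc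
      unfold consOf at hc
      rcases List.mem_cons.1 hc with rfl | hc
      · exact length_unitRow _ _
      · rw [List.mem_map] at hc
        obtain ⟨Jt, _, rfl⟩ := hc
        exact length_rowOf _ _ _)
    (by
      intro c hc
      unfold consOf at hc
      rcases List.mem_cons.1 hc with rfl | hc
      · have h1 : dotQ (unitRow N (2 * (2 * K))) (unitRow N (2 * (2 * K))) = 1 := by
          exact_mod_cast dotQ_unitRow_self N (2 * (2 * K))
        show dotQ (unitRow N (2 * (2 * K))) (unitRow N (2 * (2 * K))) ≤ m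
        rw [h1]
        exact_mod_cast hm1
      · rw [List.mem_map] at hc
        obtain ⟨Jt, hJt, rfl⟩ := hc
        exact hrow Jt hJt)
    (by
      intro c hc
      unfold consOf at hc
      rcases List.mem_cons.1 hc with rfl | hc
      · exact le_rfl
      · rw [List.mem_map] at hc
        obtain ⟨Jt, _, rfl⟩ := hc
        exact parTol_ge hm1)
    (idxTab_ok N (2 * K)) (u := uTrue N (2 * (2 * K)) z) (fun k _ => uTrue_abs _ _ _ _)
    (by
      intro c hc
      unfold consOf at hc
      rcases List.mem_cons.1 hc with rfl | hc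
      · show |∑ k ∈ range (masks N (2 * (2 * K))).length,
          ((unitRow N (2 * (2 * K))).getD k 0 : ℝ) * uTrue N (2 * (2 * K)) z k - ((1 : ℚ) : ℝ)| ≤ _
        rw [uTrue_row (length_unitRow _ _), unitRow_sum (fun R => if hit R z = true then (1 : ℝ) else 0),
          hit_replicate_false]
        push_cast
        simp
      · rw [List.mem_map] at hc
        obtain ⟨Jt, hJt, rfl⟩ := hc
        obtain ⟨h1, h2, h3⟩ := hst Jt hJt
        show |∑ k ∈ range (masks N (2 * (2 * K))).length,
          ((rowOf N (2 * (2 * K)) (terms a b n K w Jt.1 Jt.2)).getD k 0 : ℝ)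
            * uTrue N (2 * (2 * K)) z k - ((0 : ℚ) : ℝ)| ≤ ((parTol m : ℚ) : ℝ)
        rw [uTrue_rowOf (hP Jt) (fun u hu => (terms_masks hwn hu).1),
          evalT_terms hab hb Jt.2 hw h1 h2]
        push_cast
        rw [sub_zero, abs_of_nonneg (sq_nonneg _)]
        refine le_trans (le_of_eq ?_) h3
        ring)
    (uTrue_psd N (2 * K) z)
  obtain ⟨s1, s2, s3, s4⟩ := hspec
  change (solOf m a b n K st w).length = _ at s1
  change ∀ k < (masks N (2 * (2 * K))).length, |((solOf m a b n K st w).getD k 0 : ℝ)| ≤ 1 at s2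
  change ∀ c ∈ consOf m a b n K st w, |residQ (solOf m a b n K st w) c| ≤ 3 * c.2.2 at s3
  change ∀ c : ℕ → ℝ, -(1 / (m : ℝ)) * ∑ i ∈ range (idxTab N (2 * K)).length, c i ^ 2
      ≤ ∑ i ∈ range (idxTab N (2 * K)).length, ∑ j ∈ range (idxTab N (2 * K)).length,
        c i * c j * ((solOf m a b n K st w).getD (idxf (idxTab N (2 * K)) i j) 0 : ℝ) at s4
  set v := solOf m a b n K st w with hv
  refine ⟨?_, ?_, ?_, ?_⟩
  · have h := s3 (unitRow N (2 * (2 * K)), 1, 1 / (m : ℚ)) (by unfold consOf; exact List.mem_cons_self)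
    have h' : |((dotQ (unitRow N (2 * (2 * K))) v : ℚ) : ℝ) - 1| ≤ 3 * (1 / (m : ℝ)) := by
      have := (Rat.cast_le (K := ℝ)).2 h
      unfold residQ at this
      push_cast at this
      exact this
    rw [dotQ_unitRow s1] at h'
    refine h'.trans (le_of_eq ?_)
    ring
  · intro R
    unfold muL
    rcases lt_or_ge (pos (masks N (2 * (2 * K))) R) (masks N (2 * (2 * K))).length with h | h
    · exact s2 _ h
    · rw [List.getD_eq_default _ _ (by rw [s1]; exact h)]
      simp
  · intro c
    have h := s4 (fun i => c ((masks N (2 * K)).getD i []))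
    rw [idxTab_length] at h
    rw [← sum_range_getD' (masks N (2 * K)) [] (fun S => c S ^ 2),
      ← sum_range_getD' (masks N (2 * K)) [] (fun S => ((masks N (2 * K)).map fun T =>
          c S * c T * muL N (2 * (2 * K)) v (orL S T)).sum)]
    refine h.trans (le_of_eq ?_)
    refine Finset.sum_congr rfl fun i hi => ?_
    rw [← sum_range_getD' (masks N (2 * K)) [] (fun T => c ((masks N (2 * K)).getD i []) * c T *
      muL N (2 * (2 * K)) v (orL ((masks N (2 * K)).getD i []) T))]
    refine Finset.sum_congr rfl fun j hj => ?_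
    rw [Finset.mem_range] at hi hj
    unfold muL
    rw [idxf_idxTab hi hj]
  · intro Jt hJt
    have h := s3 (rowOf N (2 * (2 * K)) (terms a b n K w Jt.1 Jt.2), 0, parTol m) (by
      unfold consOf
      refine List.mem_cons_of_mem _ ?_
      rw [List.mem_map]
      exact ⟨Jt, hJt, rfl⟩)
    have h' : |((dotQ (rowOf N (2 * (2 * K)) (terms a b n K w Jt.1 Jt.2)) v : ℚ) : ℝ)|
        ≤ 3 * (parTol m : ℝ) := by
      have := (Rat.cast_le (K := ℝ)).2 h
      unfold residQ at this
      push_cast at this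
      rw [sub_zero] at this
      exact this
    rw [dotQ_rowOf s1 (hP Jt)] at h'
    exact h'

/-! ### in terms of sets -/

theorem muOf_eq (m a b n K : ℕ) (st : List (List Bool × ℚ)) (w : List Bool)
    (A : Finset (Fin (n - w.length))) : muOf m a b n K st w A
      = muL (n - w.length) (2 * (2 * K)) (solOf m a b n K st w) (maskF A) := rfl

theorem muL_orL {N d : ℕ} {v : List ℚ} {S T : List Bool} (hS : S.length = N) (hT : T.length = N) :
    muL N d v (orL S T) = muL N d v (maskF ((mset S : Finset (Fin N)) ∪ mset T)) := by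
  rw [maskF_union, maskF_mset hS, maskF_mset hT]

/-- **the output of the solver** (helper846's P5b), row norms as a hypothesis -/
theorem solOut' {m a b n K : ℕ} {st : List (List Bool × ℚ)} {w : List Bool}
    (hw : w.length ≤ n) (z : Fin (n - w.length) → Bool) (hab : a ≤ b) (hb : 0 < b)
    (hst : ∀ Jt ∈ st, Jt.1.length = n ∧ Jt.1.count true ≤ K ∧
      ((Jt.2 : ℝ) - eT ((a : ℝ) / (b : ℝ)) (w ++ List.ofFn z) Jt.1) ^ 2 ≤ parTol m)
    (hrow : ∀ Jt ∈ st, dotQ (rowOf (n - w.length) (2 * (2 * K)) (terms a b n K w Jt.1 Jt.2))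
      (rowOf (n - w.length) (2 * (2 * K)) (terms a b n K w Jt.1 Jt.2)) ≤ (m : ℚ))
    (hK : (n + 1) ^ (64 * K) ≤ 2 ^ Nat.log 2 m) (hm : 10000 ≤ Nat.log 2 m) :
    |muOf m a b n K st w ∅ - 1| ≤ 3 / m ∧
    (∀ A, |muOf m a b n K st w A| ≤ 1) ∧
    (∀ c : Finset (Fin (n - w.length)) → ℝ, (∀ S, 2 * K < S.card → c S = 0) →
      -(1 / (m : ℝ)) * ∑ S, c S ^ 2 ≤ ∑ S, ∑ T, c S * c T * muOf m a b n K st w (S ∪ T)) ∧
    (∀ Jt ∈ st, |((terms a b n K w Jt.1 Jt.2).map fun u => ((terms a b n K w Jt.1 Jt.2).map fun v =>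
      (u.2 : ℝ) * v.2 * muOf m a b n K st w (mset u.1 ∪ mset v.1)).sum).sum| ≤ 3 * parTol m) := by
  have hzw : w.length + (List.ofFn z).length = n := by rw [List.length_ofFn]; omega
  obtain ⟨h1, h2, h3, h4⟩ := solOut_masks hzw hab hb hst hrow hK hm
  refine ⟨?_, fun A => h2 _, ?_, ?_⟩
  · rw [muOf_eq, maskF_empty]
    exact h1
  · intro c hc
    have h := h3 (fun S => c (mset S))
    have e1 : ((masks (n - w.length) (2 * K)).map fun S =>
        (c (mset S : Finset (Fin (n - w.length)))) ^ 2).sum = ∑ S, c S ^ 2 :=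
      sum_masks (fun A => c A ^ 2) (fun A hA => by rw [hc A hA]; ring)
    have e2 : ((masks (n - w.length) (2 * K)).map fun S => ((masks (n - w.length) (2 * K)).map fun T =>
          c (mset S) * c (mset T) * muL (n - w.length) (2 * (2 * K)) (solOf m a b n K st w)
            (orL S T)).sum).sum = ∑ S, ∑ T, c S * c T * muOf m a b n K st w (S ∪ T) := by
      have e3 : ((masks (n - w.length) (2 * K)).map fun S => ((masks (n - w.length) (2 * K)).map fun T =>
          c (mset S) * c (mset T) * muL (n - w.length) (2 * (2 * K)) (solOf m a b n K st w)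
            (orL S T)).sum).sum
          = ((masks (n - w.length) (2 * K)).map fun S =>
            (fun A : Finset (Fin (n - w.length)) => ∑ T, c A * c T * muOf m a b n K st w (A ∪ T))
              (mset S)).sum := by
        congr 1
        refine List.map_congr_left fun S hS => ?_
        have e4 := sum_masks (N := n - w.length) (d := 2 * K)
          (fun T => c (mset S) * c T * muOf m a b n K st w (mset S ∪ T))
          (fun A hA => by rw [hc A hA]; ring)
        show _ = ∑ T, c (mset S) * c T * muOf m a b n K st w (mset S ∪ T)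
        rw [← e4]
        congr 1
        refine List.map_congr_left fun T hT => ?_
        rw [muL_orL (mem_masks.1 hS).1 (mem_masks.1 hT).1, ← muOf_eq]
      rw [e3]
      exact sum_masks (fun A => ∑ T, c A * c T * muOf m a b n K st w (A ∪ T)) (fun A hA => by
        refine Finset.sum_eq_zero fun T _ => ?_
        rw [hc A hA]; ring)
    rw [e1, e2] at h
    exact h
  · intro Jt hJt
    have h := h4 Jt hJt
    have e : ((terms a b n K w Jt.1 Jt.2).map fun u => ((terms a b n K w Jt.1 Jt.2).map fun v =>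
        ((u.2 : ℝ) * v.2) * muL (n - w.length) (2 * (2 * K)) (solOf m a b n K st w)
          (orL u.1 v.1)).sum).sum
        = ((terms a b n K w Jt.1 Jt.2).map fun u => ((terms a b n K w Jt.1 Jt.2).map fun v =>
      (u.2 : ℝ) * v.2 * muOf m a b n K st w (mset u.1 ∪ mset v.1)).sum).sum := by
      congr 1
      refine List.map_congr_left fun u hu => ?_
      congr 1
      refine List.map_congr_left fun v hv => ?_
      rw [muL_orL (terms_masks hw hu).1 (terms_masks hw hv).1, ← muOf_eq]
    rw [e] at h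
    exact h

/-- **the output of the solver** -/
theorem solOut_full {m a b n K : ℕ} {st : List (List Bool × ℚ)} {w : List Bool}
    (hw : w.length ≤ n) (z : Fin (n - w.length) → Bool) (hab : a ≤ b) (hb : 0 < b)
    (hst : ∀ Jt ∈ st, Jt.1.length = n ∧ Jt.1.count true ≤ K ∧ 0 ≤ Jt.2 ∧ Jt.2 ≤ 1 ∧
      ((Jt.2 : ℝ) - eT ((a : ℝ) / (b : ℝ)) (w ++ List.ofFn z) Jt.1) ^ 2 ≤ parTol m)
    (hK : (n + 1) ^ (64 * K) ≤ 2 ^ Nat.log 2 m) (hm : 10000 ≤ Nat.log 2 m) :
    |muOf m a b n K st w ∅ - 1| ≤ 3 / m ∧
    (∀ A, |muOf m a b n K st w A| ≤ 1) ∧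
    (∀ c : Finset (Fin (n - w.length)) → ℝ, (∀ S, 2 * K < S.card → c S = 0) →
      -(1 / (m : ℝ)) * ∑ S, c S ^ 2 ≤ ∑ S, ∑ T, c S * c T * muOf m a b n K st w (S ∪ T)) ∧
    (∀ Jt ∈ st, |((terms a b n K w Jt.1 Jt.2).map fun u => ((terms a b n K w Jt.1 Jt.2).map fun v =>
      (u.2 : ℝ) * v.2 * muOf m a b n K st w (mset u.1 ∪ mset v.1)).sum).sum| ≤ 3 * parTol m) := by
  refine solOut' hw z hab hb (fun Jt hJt => ⟨(hst Jt hJt).1, (hst Jt hJt).2.1,
    (hst Jt hJt).2.2.2.2⟩) (fun Jt hJt => ?_) hK hm
  obtain ⟨h1, _, h3, h4, _⟩ := hst Jt hJt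
  refine (dotQ_rowOf_le _ _ _ _ (sum_abs_terms_le hab hb w Jt.1 h3 h4 h1)).trans ?_
  have := (pow_bounds hK hm).2.2
  exact_mod_cast this

/-- **the output of the solver** (helper846's P5b) -/
theorem solOut {m a b n K : ℕ} (hab : a ≤ b) (hb : 0 < b) {w : List Bool} (hw : w.length < n)
    (z : Fin (n - w.length) → Bool) (hpow : (n + 1) ^ (64 * K) ≤ 2 ^ Nat.log 2 m)
    (hL : 10000 ≤ Nat.log 2 m) {st : List (List Bool × ℚ)}
    (hst : ∀ Jt ∈ st, Jt.1.length = n ∧ Jt.1.count true ≤ K ∧ 0 ≤ Jt.2 ∧ Jt.2 ≤ 1 ∧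
      ((Jt.2 : ℝ) - eT ((a : ℝ) / b) (w ++ List.ofFn z) Jt.1) ^ 2 ≤ ((parTol m : ℚ) : ℝ)) :
    SolOut m a b n K st w := by
  obtain ⟨h1, _, h3, h4⟩ := solOut_full hw.le z hab hb hst hpow hL
  exact ⟨h1, h3, h4⟩

end Crest.Agent.R300.Dec
end

-- ▼ part R300/Dec/Loop
section

/-!
# Row 300, machine side: the letter loop, empirical frequencies, masks and sets of positions
-/

set_option autoImplicit false
set_option linter.dupNamespace false

namespace Crest.Agent.R300.Dec

open Crest.Agent.Lib.PT Crest.FinProb Crest.TraceRecon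

/-! ### the loop -/

theorem loop_take {n : ℕ} (x : Fin n → Bool) (f : List Bool → Bool)
    (h : ∀ t (ht : t < n), f ((List.ofFn x).take t) = x ⟨t, ht⟩) (i : ℕ) (hi : i ≤ n) :
    (fun w => w ++ [f w])^[i] [] = (List.ofFn x).take i := by
  induction i with
  | zero => rfl
  | succ i ih =>
    rw [Function.iterate_succ_apply', ih (by omega)]
    have h1 : i < (List.ofFn x).length := by rw [List.length_ofFn]; omega
    show (List.ofFn x).take i ++ [f ((List.ofFn x).take i)] = _
    rw [h i (by omega), ← List.take_concat_get' _ _ h1]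
    simp

theorem decodeCore_eq {a b n : ℕ} {Ys : List (List Bool)} (x : Fin n → Bool)
    (h : ∀ t (ht : t < n), nextBit Ys.length a b n (parK n Ys.length)
      (statsOf n (parK n Ys.length) Ys) ((List.ofFn x).take t) = x ⟨t, ht⟩) :
    decodeCore a b n Ys = List.ofFn x := by
  unfold decodeCore
  rw [loop_take x (fun w => nextBit Ys.length a b n (parK n Ys.length)
      (statsOf n (parK n Ys.length) Ys) w) h n le_rfl]
  exact List.take_of_length_le (by rw [List.length_ofFn])

theorem decodeW_eq_core {a b n : ℕ} {Ys : List (List Bool)} (h : n ≤ Ys.length) :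
    decodeW a b n Ys = decodeCore a b n Ys := by
  unfold decodeW
  rw [min_eq_left h]

theorem readWord_ofFn {n : ℕ} (x : Fin n → Bool) : readWord n (List.ofFn x) = x := by
  funext i
  unfold readWord
  rw [List.getD_eq_getElem _ _ (by rw [List.length_ofFn]; exact i.2)]
  simp

/-! ### masks and sets of positions -/

theorem mem_setOf {J : List Bool} {i : ℕ} : i ∈ setOf J ↔ J.getD i false = true := by
  unfold setOf
  rw [Finset.mem_filter, Finset.mem_range]
  refine ⟨fun h => h.2, fun h => ⟨?_, h⟩⟩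
  by_contra hcon
  rw [List.getD_eq_default _ _ (by omega)] at h
  exact absurd h (by simp)

theorem lt_of_mem_setOf {J : List Bool} {i : ℕ} (h : i ∈ setOf J) : i < J.length := by
  unfold setOf at h
  exact Finset.mem_range.1 (Finset.mem_filter.1 h).1

theorem maskOf_setOf' {J : List Bool} {n : ℕ} (h : J.length = n) : maskOf n (setOf J) = J := by
  subst h
  exact maskOf_setOf J


theorem setOf_cons (b : Bool) (J : List Bool) :
    setOf (b :: J) = (if b then {0} else ∅) ∪ (setOf J).image (· + 1) := by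
  ext i
  rw [mem_setOf, Finset.mem_union, Finset.mem_image]
  cases i with
  | zero => cases b <;> simp
  | succ i =>
    rw [List.getD_cons_succ]
    constructor
    · intro h
      exact Or.inr ⟨i, mem_setOf.2 h, rfl⟩
    · rintro (h | ⟨j, hj, hj'⟩)
      · cases b <;> simp at h
      · obtain rfl : j = i := by simpa using hj'
        exact mem_setOf.1 hj

theorem card_setOf (J : List Bool) : (setOf J).card = J.count true := by
  induction J with
  | nil => simp [setOf]
  | cons b J ih =>
    rw [setOf_cons, Finset.card_union_of_disjoint, Finset.card_image_of_injective _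
      (add_left_injective 1), ih]
    · cases b
      · simp
      · simp [add_comm]
    · rw [Finset.disjoint_left]
      intro i hi hi'
      obtain ⟨j, _, rfl⟩ := Finset.mem_image.1 hi'
      cases b <;> simp at hi


theorem mask_eq_maskOf {n K : ℕ} {J : List Bool} (h : J ∈ masks n K) :
    J = maskOf n (setOf J) ∧ (setOf J).card = J.count true ∧ (setOf J).card ≤ K ∧
      ∀ j ∈ setOf J, j < n := by
  rw [mem_masks] at h
  refine ⟨(maskOf_setOf' h.1).symm, card_setOf J, by rw [card_setOf]; exact h.2, fun j hj => ?_⟩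
  have := lt_of_mem_setOf hj
  omega

/-! ### statistics -/

theorem countP_ofFn {α : Type} {m : ℕ} (τ : Fin m → α) (f : α → Bool) :
    (((List.ofFn τ).countP f : ℕ) : ℝ) = ∑ k, if f (τ k) then (1 : ℝ) else 0 := by
  induction m with
  | zero => simp
  | succ m ih =>
    rw [List.ofFn_succ, List.countP_cons, Fin.sum_univ_succ, ← ih (fun i => τ i.succ)]
    cases h : f (τ 0) <;> simp [add_comm]

theorem emp_eq_That {n m : ℕ} {a : Finset ℕ} (ha : ∀ j ∈ a, j < n) (τ : Fin m → List Bool) :
    ((emp (maskOf n a) (List.ofFn τ) : ℚ) : ℝ) = R300U.That τ a := by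
  unfold emp R300U.That
  rw [Rat.cast_div, Rat.cast_natCast, Rat.cast_natCast, List.length_ofFn, countP_ofFn]
  congr 1
  exact Finset.sum_congr rfl fun k _ => (stat_eq ha (τ k)).symm

theorem emp_nonneg (J : List Bool) (Ys : List (List Bool)) : 0 ≤ emp J Ys := by
  unfold emp
  positivity

theorem emp_le_one (J : List Bool) (Ys : List (List Bool)) : emp J Ys ≤ 1 := by
  unfold emp
  rcases Nat.eq_zero_or_pos Ys.length with h | h
  · rw [h]; simp
  · rw [div_le_one (by exact_mod_cast h)]
    exact_mod_cast List.countP_le_length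

/-- membership in the list of statistics -/
theorem mem_statsOf {n K : ℕ} {Ys : List (List Bool)} {Jt : List Bool × ℚ}
    (h : Jt ∈ statsOf n K Ys) :
    Jt.1 ∈ masks n K ∧ Jt.1.length = n ∧ Jt.1.count true ≤ K ∧ Jt.2 = emp Jt.1 Ys ∧
      0 ≤ Jt.2 ∧ Jt.2 ≤ 1 := by
  unfold statsOf at h
  obtain ⟨J, hJ, rfl⟩ := List.mem_map.1 h
  exact ⟨hJ, (mem_masks.1 hJ).1, (mem_masks.1 hJ).2, rfl, emp_nonneg _ _, emp_le_one _ _⟩


end Crest.Agent.R300.Dec
end

-- ▼ part R300/Dec/RowPT
section

/-!
# Row 300, machine side: polynomial time of the pieces of `Row`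
-/

set_option autoImplicit false
set_option linter.dupNamespace false

namespace Crest.Agent.R300.Dec

open Crest.Agent.Lib.PT

variable {γ : Type} [PTCode γ]

theorem hit_eq_all (J y : List Bool) (m : ℕ) (hm : J.length ≤ m) :
    hit J y = (J.zip (y ++ List.replicate m false)).all fun p => !p.1 || p.2 := by
  induction J generalizing y m with
  | nil => simp
  | cons j J ih =>
    rw [hit_cons]
    cases y with
    | nil =>
      obtain ⟨m, rfl⟩ : ∃ k, m = k + 1 := ⟨m - 1, by simp only [List.length_cons] at hm; omega⟩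
      rw [List.nil_append, List.replicate_succ, List.zip_cons_cons, List.all_cons,
        List.tail_nil, List.headD_nil, ih [] m (by simpa using hm), List.nil_append]
    | cons b y =>
      rw [List.cons_append, List.zip_cons_cons, List.all_cons, List.tail_cons, List.headD_cons,
        ih y m (by simp only [List.length_cons] at hm; omega)]

theorem ptf_hit {J y : γ → List Bool} (hJ : PTF J) (hy : PTF y) :
    PTF (fun c => hit (J c) (y c)) := by
  have h1 : PTF (fun c => y c ++ List.replicate (J c).length false) :=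
    PTF.append hy (PTF.replicate (PTU.length hJ) (PTF.const false))
  have h2 : PTF (fun c => (J c).zip (y c ++ List.replicate (J c).length false)) := PTF.zip hJ h1
  refine (PTF.all (p := fun (_ : γ) (p : Bool × Bool) => !p.1 || p.2) h2 ?_).of_eq fun c => ?_
  · show PTF (fun q : γ × Bool × Bool => !q.2.1 || q.2.2)
    fun_prop
  · rw [← hit_eq_all _ _ _ le_rfl]

theorem PTPred.eqTrue {f : γ → Bool} (hf : PTF f) : PTPred (fun c => f c = true) :=
  PTPred.eq hf (PTF.const true)

theorem ptf_dpInit {J : γ → List Bool} (hJ : PTF J) : PTF (fun c => dpInit (J c)) := by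
  unfold dpInit
  refine PTF.tabulate (f := fun c i => if hit ((J c).drop (min i (J c).length)) [] = true then 1
    else 0) (PTU.succ (PTU.length hJ)) ?_
  have hJ' : PTF (fun q : γ × ℕ => J q.1) := PTF.comp hJ PTF.fst
  refine PTF.ite (PTPred.eqTrue (ptf_hit (PTF.drop (PTF.natMinUn PTF.snd (PTU.length hJ')) hJ')
    (PTF.const []))) (PTF.const 1) (PTF.const 0)

theorem ptf_dpStep {a c : γ → ℕ} {J : γ → List Bool} {s : γ → Bool} {r : γ → List ℕ}
    (ha : PTF a) (hc : PTF c) (hJ : PTF J) (hs : PTF s) (hr : PTF r) :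
    PTF (fun x => dpStep (a x) (c x) (J x) (s x) (r x)) := by
  unfold dpStep
  refine PTF.zipWith (f := fun x (j : Bool) (rr : ℕ × ℕ) =>
    (if s x = true then 0 else c x * rr.1) + (if s x = j then a x * rr.2 else 0)) hJ
    (PTF.zip hr (PTF.tail hr)) ?_
  have hs' : PTF (fun p : γ × Bool × ℕ × ℕ => s p.1) := PTF.comp hs PTF.fst
  have hc' : PTF (fun p : γ × Bool × ℕ × ℕ => c p.1) := PTF.comp hc PTF.fst
  have ha' : PTF (fun p : γ × Bool × ℕ × ℕ => a p.1) := PTF.comp ha PTF.fst
  refine PTF.natAdd (PTF.ite (PTPred.eqTrue hs') (PTF.const 0) (PTF.natMul hc' (by fun_prop))) ?_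
  exact PTF.ite (PTPred.eq hs' (by fun_prop)) (PTF.natMul ha' (by fun_prop)) (PTF.const 0)

theorem dpStep_bound (a c : ℕ) (J : List Bool) (s : Bool) (r : List ℕ) {B : ℕ}
    (h : ∀ x ∈ r, x ≤ B) : (dpStep a c J s r).length ≤ r.length ∧
    ∀ x ∈ dpStep a c J s r, x ≤ B * (a + c) := by
  unfold dpStep
  refine ⟨by rw [List.length_zipWith, List.length_zip]; omega, fun x hx => ?_⟩
  rw [List.mem_iff_getElem] at hx
  obtain ⟨i, hi, rfl⟩ := hx
  rw [List.getElem_zipWith, List.getElem_zip]
  simp only [List.length_zipWith, List.length_zip, List.length_tail] at hi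
  have h1 := h (r[i]'(by omega)) (List.getElem_mem _)
  have h2 := h (r[i + 1]'(by omega)) (List.getElem_mem _)
  rw [List.getElem_tail]
  have h3 := Nat.mul_le_mul_left c h1
  have h4 := Nat.mul_le_mul_left a h2
  have h5 : B * (a + c) = c * B + a * B := by ring
  rw [h5]
  refine Nat.add_le_add ?_ ?_
  · split_ifs
    · omega
    · exact h3
  · have h6 : ∀ (P : Prop) [Decidable P], (if P then a * r[i + 1]'(by omega) else 0) ≤ a * B := by
      intro P _
      by_cases hP : P
      · rw [if_pos hP]; exact h4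
      · rw [if_neg hP]; exact Nat.zero_le _
    exact h6 _

/-- size of the state of the dynamic program -/
theorem dp_bound (a c : ℕ) (J S : List Bool) :
    (S.foldr (dpStep a c J) (dpInit J)).length ≤ J.length + 1 ∧
    ∀ x ∈ S.foldr (dpStep a c J) (dpInit J), x ≤ (a + c) ^ S.length := by
  induction S with
  | nil =>
    rw [List.foldr_nil]
    refine ⟨by simp [dpInit], fun x hx => ?_⟩
    unfold dpInit at hx
    rw [List.mem_map] at hx
    obtain ⟨i, _, rfl⟩ := hx
    split_ifs <;> simp
  | cons s S ih =>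
    rw [List.foldr_cons, List.length_cons, pow_succ]
    obtain ⟨h1, h2⟩ := dpStep_bound a c J s _ ih.2
    exact ⟨h1.trans ih.1, h2⟩

theorem size_pow_le' (x k : ℕ) : (x ^ k).size ≤ k * x.size + 1 := by
  rw [Nat.size_le]
  have h : x ^ k ≤ (2 ^ x.size) ^ k := Nat.pow_le_pow_left (Nat.lt_size_self x).le k
  rw [← pow_mul, mul_comm] at h
  have h2 : 0 < 2 ^ (k * x.size) := by positivity
  rw [pow_succ]
  omega

theorem ptf_EcDP {a c : γ → ℕ} {S J : γ → List Bool}
    (ha : PTF a) (hc : PTF c) (hS : PTF S) (hJ : PTF J) :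
    PTF (fun x => EcDP (a x) (c x) (S x) (J x)) := by
  have hfold : PTF (fun x => (S x).foldr (dpStep (a x) (c x) (J x)) (dpInit (J x))) := by
    refine PTF.foldr (f := fun x s r => dpStep (a x) (c x) (J x) s r) hS ?_ (ptf_dpInit hJ)
      (B := fun x => ((J x).length + 1) *
        (2 * ((S x).length * ((a x + c x).size) + 1) + 1)) ?_ ?_
    · exact ptf_dpStep (PTF.comp ha PTF.fst) (PTF.comp hc PTF.fst) (PTF.comp hJ PTF.fst)
        (by fun_prop) (by fun_prop)
    · have h1 : PB (fun x => (J x).length) := (PTU.length hJ).pb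
      have h2 : PB (fun x => (S x).length) := (PTU.length hS).pb
      have h3 : PB (fun x => (a x + c x).size) := (PTF.natSizeUn (PTF.natAdd ha hc)).pb
      fun_prop
    · intro x i hi
      obtain ⟨h1, h2⟩ := dp_bound (a x) (c x) (J x) ((S x).drop i)
      refine (sz_list_le (m := (S x).length * ((a x + c x).size) + 1) fun y hy => ?_).trans
        (Nat.mul_le_mul_right _ h1)
      rw [sz_nat]
      refine (Nat.size_le_size (h2 y hy)).trans ((size_pow_le' _ _).trans ?_)
      have : ((S x).drop i).length ≤ (S x).length := by rw [List.length_drop]; omega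
      have := Nat.mul_le_mul_right (a x + c x).size this
      omega
  refine (PTF.optionGetD (PTF.head? hfold) (PTF.const 0)).of_eq fun x => ?_
  unfold EcDP
  rw [List.headD_eq_head?_getD]

theorem ptf_terms {a b K : γ → ℕ} {n : γ → ℕ} {w J : γ → List Bool} {th : γ → ℚ}
    (ha : PTF a) (hb : PTF b) (hn : PTU n) (hK : PTU K) (hw : PTF w) (hJ : PTF J) (hth : PTF th)
    (hB : PB (fun c => (n c + 1) ^ K c)) :
    PTF (fun c => terms (a c) (b c) (n c) (K c) (w c) (J c) (th c)) := by
  unfold terms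
  refine PTF.listCons (PTF.prodMk (PTF.replicate (PTU.sub hn (PTU.length hw)) (PTF.const false))
    (PTF.ratNeg hth)) ?_
  refine PTF.map (f := fun c (S : List Bool) => (S.drop (w c).length,
    (EcDP (a c) (b c - a c) S (J c) : ℚ) / (b c : ℚ) ^ n c))
    (PTF.filter (p := fun c (S : List Bool) => hit (S.take (w c).length) (w c))
      (ptf_masks hn hK hB) ?_) ?_
  · have hw' : PTF (fun q : γ × List Bool => w q.1) := PTF.comp hw PTF.fst
    exact ptf_hit (PTF.take (PTU.length hw') PTF.snd) hw'
  · have hw' : PTF (fun q : γ × List Bool => w q.1) := PTF.comp hw PTF.fst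
    have ha' : PTF (fun q : γ × List Bool => a q.1) := PTF.comp ha PTF.fst
    have hb' : PTF (fun q : γ × List Bool => b q.1) := PTF.comp hb PTF.fst
    have hJ' : PTF (fun q : γ × List Bool => J q.1) := PTF.comp hJ PTF.fst
    have hn' : PTU (fun q : γ × List Bool => n q.1) := PTU.comp hn PTF.fst
    refine PTF.prodMk (PTF.drop (PTU.length hw') PTF.snd) ?_
    refine PTF.ratDiv (PTF.ratNatCast (ptf_EcDP ha' (PTF.natSub hb' ha') PTF.snd hJ')) ?_
    exact PTF.ratPow (PTF.ratNatCast hb') hn'

theorem ptf_orL {u v : γ → List Bool} (hu : PTF u) (hv : PTF v) :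
    PTF (fun c => orL (u c) (v c)) :=
  PTF.zipWith (f := fun _ a b => a || b) hu hv (by fun_prop)

theorem ptf_rowOf {N d : γ → ℕ} {P : γ → List (List Bool × ℚ)} (hN : PTU N) (hd : PTU d)
    (hB : PB (fun c => (N c + 1) ^ d c)) (hP : PTF P) :
    PTF (fun c => rowOf (N c) (d c) (P c)) := by
  unfold rowOf
  refine PTF.map (f := fun c (R : List Bool) => ((P c).flatMap fun u =>
    ((P c).filter fun v => decide (orL u.1 v.1 = R)).map fun v => u.2 * v.2).sum)
    (ptf_masks hN hd hB) ?_
  refine PTF.ratListSum ?_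
  have hP' : PTF (fun q : γ × List Bool => P q.1) := PTF.comp hP PTF.fst
  refine PTF.flatMap (γ := γ × List Bool) (l := fun q => P q.1) (f := fun q u =>
    ((P q.1).filter fun v => decide (orL u.1 v.1 = q.2)).map fun v => u.2 * v.2) hP' ?_
  have hP'' : PTF (fun q : (γ × List Bool) × List Bool × ℚ => P q.1.1) :=
    PTF.comp hP (by fun_prop)
  refine PTF.map (γ := (γ × List Bool) × List Bool × ℚ)
    (l := fun q => (P q.1.1).filter fun v => decide (orL q.2.1 v.1 = q.1.2))
    (f := fun q v => q.2.2 * v.2) ?_ ?_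
  · refine PTF.filter (γ := (γ × List Bool) × List Bool × ℚ) (l := fun q => P q.1.1)
      (p := fun q v => decide (orL q.2.1 v.1 = q.1.2)) hP'' ?_
    exact PTF.beq (ptf_orL (by fun_prop) (by fun_prop)) (by fun_prop)
  · show PTF (fun q : ((γ × List Bool) × List Bool × ℚ) × List Bool × ℚ => q.1.2.2 * q.2.2)
    fun_prop

theorem ptu_pos {l : γ → List (List Bool)} {a : γ → List Bool} (hl : PTF l) (ha : PTF a) :
    PTU (fun c => pos (l c) (a c)) := by
  unfold pos
  refine PTU.length (PTF.takeWhile (p := fun c b => decide (b ≠ a c)) hl ?_)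
  exact (PTPred.eq (γ := γ × List Bool) PTF.snd (PTF.comp ha PTF.fst)).not.toPTF

theorem ptf_idxTab {N D : γ → ℕ} (hN : PTU N) (hD : PTU D)
    (hB : PB (fun c => (N c + 1) ^ (2 * D c))) : PTF (fun c => idxTab (N c) (D c)) := by
  have hB1 : PB (fun c => (N c + 1) ^ (D c)) :=
    hB.mono fun c => Nat.pow_le_pow_right (by omega) (by omega)
  have hm1 : PTF (fun c => masks (N c) (D c)) := ptf_masks hN hD hB1
  have hm2 : PTF (fun c => masks (N c) (2 * D c)) :=
    ptf_masks hN (PTU.mul (PTU.const 2) hD) hB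
  unfold idxTab
  refine PTF.map (f := fun c S => (masks (N c) (D c)).map fun S' =>
    pos (masks (N c) (2 * D c)) (orL S S')) hm1 ?_
  refine PTF.map (γ := γ × List Bool) (l := fun q => masks (N q.1) (D q.1)) (f := fun q S' =>
    pos (masks (N q.1) (2 * D q.1)) (orL q.2 S')) (PTF.comp hm1 PTF.fst) ?_
  refine Crest.Agent.Lib.PT.PTU.toPTF ?_
  exact ptu_pos (PTF.comp (g := fun c => masks (N c) (2 * D c))
    (f := fun q : (γ × List Bool) × List Bool => q.1.1) hm2 (by fun_prop))
    (ptf_orL (by fun_prop) (by fun_prop))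

end Crest.Agent.R300.Dec
end

-- ▼ part R300/Dec/Parse
section

/-!
# Row 300: reading the input of the decoder
-/

set_option autoImplicit false

namespace Crest.Agent.R300.Dec

open Crest.Agent.Lib.PT Crest.Enc Crest.TraceRecon

/-- binary value of a list of bits (least significant first) -/
def ofB (l : List Bool) : ℕ := l.foldr (fun b n => Nat.bit b n) 0

/-- state: (digits read, reversed), rest, finished -/
abbrev RdS := List Bool × List Bool × Bool

/-- one step of reading a natural number -/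
def rdStep (s : RdS) : RdS :=
  bif s.2.2 then s else
    match s.2.1 with
    | [] => (s.1, [], true)
    | a :: t => match t with
      | [] => (s.1, [], true)
      | b :: r => bif a then (b :: s.1, r, false) else (s.1, r, true)

/-- read a natural number -/
def readNat (l : List Bool) : ℕ × List Bool :=
  (ofB (rdStep^[l.length] ([], l, false)).1.reverse, (rdStep^[l.length] ([], l, false)).2.1)

theorem ofB_bits (n : ℕ) : ofB n.bits = n := by
  unfold ofB
  induction n using Nat.binaryRec' with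
  | zero => simp
  | bit b n h ih =>
    rw [Nat.bits_append_bit n b h]
    simp [ih]

theorem rdStep_done (k : ℕ) (a r : List Bool) : rdStep^[k] (a, r, true) = (a, r, true) := by
  induction k with
  | zero => rfl
  | succ k ih => rw [Function.iterate_succ_apply', ih]; rfl

theorem rdStep_digits (ds acc r : List Bool) :
    rdStep^[ds.length] (acc, (ds.map fun b => [true, b]).flatten ++ r, false)
      = (ds.reverse ++ acc, r, false) := by
  induction ds generalizing acc with
  | nil => simp
  | cons d ds ih =>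
    rw [List.length_cons, Function.iterate_succ_apply]
    have h : rdStep (acc, ((d :: ds).map fun b => [true, b]).flatten ++ r, false)
        = (d :: acc, (ds.map fun b => [true, b]).flatten ++ r, false) := by
      simp [rdStep]
    rw [h, ih]
    simp

theorem readNat_natCode (n : ℕ) (r : List Bool) : readNat (natCode n ++ r) = (n, r) := by
  unfold readNat natCode
  have hlen : ((n.bits.map fun b => [true, b]).flatten ++ [false, false] ++ r).length
      = (2 * n.bits.length - n.bits.length + 1 + r.length) + 1 + n.bits.length := by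
    simp only [List.length_append, List.length_flatten, List.map_map, List.length_cons,
      List.length_nil]
    have : (n.bits.map (List.length ∘ fun b => [true, b])).sum = 2 * n.bits.length := by
      induction n.bits with
      | nil => simp
      | cons a l ih => simp [ih]; omega
    omega
  have key : rdStep^[((n.bits.map fun b => [true, b]).flatten ++ [false, false] ++ r).length]
      ([], (n.bits.map fun b => [true, b]).flatten ++ [false, false] ++ r, false)
      = (n.bits.reverse, r, true) := by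
    rw [hlen, Function.iterate_add_apply, List.append_assoc, rdStep_digits,
      Function.iterate_add_apply]
    simp only [List.append_nil, Function.iterate_one]
    have h : rdStep (n.bits.reverse, [false, false] ++ r, false) = (n.bits.reverse, r, true) := by
      simp [rdStep]
    rw [h, rdStep_done]
  rw [key]
  simp [ofB_bits]

/-- read the absolute value of a rational: numerator and denominator -/
def readRat (l : List Bool) : (ℕ × ℕ) × List Bool :=
  ((readNat l.tail).1, (readNat (readNat l.tail).2).1, (readNat (readNat l.tail).2).2) |>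
    fun t => ((t.1, t.2.1), t.2.2)

theorem readRat_ratCode (q : ℚ) (r : List Bool) :
    readRat (ratCode q ++ r) = ((q.num.natAbs, q.den), r) := by
  unfold readRat ratCode
  simp only [List.cons_append, List.tail_cons, List.append_assoc, readNat_natCode]

/-- read one word -/
def rdWord (s : List (List Bool) × List Bool) : List (List Bool) × List Bool :=
  ((readNat s.2).2.take (readNat s.2).1 :: s.1, (readNat s.2).2.drop (readNat s.2).1)

theorem rdWord_step (acc : List (List Bool)) (w r : List Bool) :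
    rdWord (acc, natCode w.length ++ w ++ r) = (w :: acc, r) := by
  unfold rdWord
  simp only [List.append_assoc, readNat_natCode]
  simp

theorem rdWord_iter (ws acc : List (List Bool)) (r : List Bool) :
    rdWord^[ws.length] (acc, (ws.map fun w => natCode w.length ++ w).flatten ++ r)
      = (ws.reverse ++ acc, r) := by
  induction ws generalizing acc with
  | nil => simp
  | cons w ws ih =>
    rw [List.length_cons, Function.iterate_succ_apply, List.map_cons, List.flatten_cons,
      List.append_assoc, rdWord_step, ih]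
    simp

/-- read the whole input: word length, retention probability, traces -/
def parseInput (l : List Bool) : ℕ × (ℕ × ℕ) × List (List Bool) :=
  let a := readNat l
  let b := readRat a.2
  let c := readNat b.2
  (a.1, b.1, (rdWord^[min c.1 l.length] ([], c.2)).1.reverse)

theorem length_le_flatten (ws : List (List Bool)) :
    ws.length ≤ (ws.map fun w => natCode w.length ++ w).flatten.length := by
  induction ws with
  | nil => simp
  | cons w ws ih =>
    rw [List.map_cons, List.flatten_cons, List.length_append, List.length_cons]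
    have : 1 ≤ (natCode w.length ++ w).length := by
      unfold natCode
      simp only [List.length_append, List.length_cons, List.length_nil]
      omega
    omega

theorem parse_decoderInput' {n m : ℕ} (p : ℚ) (τ : Fin m → List Bool) :
    parseInput (decoderInput n p τ) = (n, (p.num.natAbs, p.den), List.ofFn τ) := by
  unfold parseInput decoderInput traceListCode
  simp only [List.append_assoc, readNat_natCode, readRat_ratCode]
  have h1 : min (List.ofFn τ).length (natCode n ++ (ratCode p ++ (natCode (List.ofFn τ).length ++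
      ((List.ofFn τ).map fun w => natCode w.length ++ w).flatten))).length = (List.ofFn τ).length := by
    apply min_eq_left
    have := length_le_flatten (List.ofFn τ)
    simp only [List.length_append] at this ⊢
    omega
  rw [h1]
  have h2 := rdWord_iter (List.ofFn τ) [] []
  simp only [List.append_nil] at h2
  rw [h2]
  simp

theorem parse_decoderInput {n m : ℕ} (p : ℚ) (_hp : 0 ≤ p) (τ : Fin m → List Bool) :
    parseInput (Crest.TraceRecon.decoderInput n p τ) = (n, (p.num.natAbs, p.den), List.ofFn τ) :=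
  parse_decoderInput' p τ

/-! ### polynomial time -/

section pt

variable {γ : Type} [PTCode γ]

theorem ptf_rdStep {s : γ → RdS} (hs : PTF s) : PTF (fun c => rdStep (s c)) := by
  have h1 : PTF (fun s : RdS => match s.2.1 with
      | [] => ((s.1, [], true) : RdS)
      | a :: t => match t with
        | [] => (s.1, [], true)
        | b :: r => bif a then (b :: s.1, r, false) else (s.1, r, true)) := by
    have h0 := PTF.listCasesOn (s := fun p : RdS × Bool × List Bool => p.2.2)
      (f := fun p => ((p.1.1, [], true) : RdS))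
      (g := fun p b r => bif p.2.1 then ((b :: p.1.1, r, false) : RdS) else (p.1.1, r, true))
      (by fun_prop) (by fun_prop) (PTF.cond (by fun_prop) (by fun_prop) (by fun_prop))
    have h := PTF.listCasesOn (s := fun s : RdS => s.2.1) (f := fun s => ((s.1, [], true) : RdS))
      (g := fun s a t => match t with
        | [] => ((s.1, [], true) : RdS)
        | b :: r => bif a then (b :: s.1, r, false) else (s.1, r, true)) (by fun_prop)
      (by fun_prop) (PTF.of_eq h0 (fun p => by rcases p.2.2 with _ | ⟨b, r⟩ <;> rfl))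
    refine PTF.of_eq h (fun s => ?_)
    rcases s.2.1 with _ | ⟨a, _ | ⟨b, r⟩⟩ <;> rfl
  have h2 : PTF rdStep := by
    unfold rdStep
    exact PTF.cond (by fun_prop) (by fun_prop) h1
  exact PTF.comp h2 hs

theorem rdStep_len (s : RdS) : (rdStep s).1.length ≤ s.1.length + 1 ∧
    (rdStep s).2.1.length ≤ s.2.1.length := by
  unfold rdStep
  rcases s with ⟨a, l, b⟩
  cases b
  · cases l with
    | nil => simp
    | cons x t =>
      cases t with
      | nil => simp
      | cons y r => cases x <;> simp <;> omega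
  · simp

theorem rdStep_iter_len (k : ℕ) (s : RdS) : (rdStep^[k] s).1.length ≤ s.1.length + k ∧
    (rdStep^[k] s).2.1.length ≤ s.2.1.length := by
  induction k with
  | zero => simp
  | succ k ih =>
    rw [Function.iterate_succ_apply']
    have := rdStep_len (rdStep^[k] s)
    omega

theorem ptf_rdIter {l : γ → List Bool} (hl : PTF l) :
    PTF (fun c => rdStep^[(l c).length] ([], l c, false)) := by
  refine PTF.iterate' (f := fun (_ : γ) s => rdStep s) (a := fun c => (([], l c, false) : RdS))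
    (PTU.length hl) (ptf_rdStep PTF.snd) (by fun_prop)
    (B := fun c => 2 * (3 * (l c).length) + 1 + (2 * (3 * (l c).length) + 1 + 1)) ?_ ?_
  · have h1 := (PTU.length hl).pb
    fun_prop
  · intro c i hi
    have h := rdStep_iter_len i ([], l c, false)
    simp only [List.length_nil, zero_add] at h
    change sz (rdStep^[i] ([], l c, false)) ≤ _
    rw [sz_prod, sz_prod, sz_listBool, sz_listBool, sz_bool]
    omega

theorem ptf_readNat {l : γ → List Bool} (hl : PTF l) : PTF (fun c => readNat (l c)) := by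
  unfold readNat ofB
  have h := ptf_rdIter hl
  exact PTF.prodMk (PTF.ofBits (PTF.reverse (PTF.comp (g := fun s : RdS => s.1) (by fun_prop) h)))
    (PTF.comp (g := fun s : RdS => s.2.1) (by fun_prop) h)

theorem readNat_len (l : List Bool) : (readNat l).2.length ≤ l.length :=
  (rdStep_iter_len l.length ([], l, false)).2

theorem ptf_readRat {l : γ → List Bool} (hl : PTF l) : PTF (fun c => readRat (l c)) := by
  unfold readRat
  have ha := ptf_readNat (PTF.tail hl)
  have hb := ptf_readNat (PTF.comp (g := fun p : ℕ × List Bool => p.2) (by fun_prop) ha)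
  exact PTF.prodMk (PTF.prodMk (PTF.comp (g := fun p : ℕ × List Bool => p.1) (by fun_prop) ha)
    (PTF.comp (g := fun p : ℕ × List Bool => p.1) (by fun_prop) hb))
    (PTF.comp (g := fun p : ℕ × List Bool => p.2) (by fun_prop) hb)

/-- `take` with a binary index -/
theorem ptf_takeB {α : Type} [PTCode α] {n : γ → ℕ} {l : γ → List α} (hn : PTF n) (hl : PTF l) :
    PTF (fun c => (l c).take (n c)) := by
  refine PTF.of_eq (PTF.take (PTF.natMinUn hn (PTU.length hl)) hl) (fun c => ?_)
  rcases le_total (n c) (l c).length with h | h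
  · rw [min_eq_left h]
  · rw [min_eq_right h, List.take_of_length_le h, List.take_of_length_le le_rfl]

/-- `drop` with a binary index -/
theorem ptf_dropB {α : Type} [PTCode α] {n : γ → ℕ} {l : γ → List α} (hn : PTF n) (hl : PTF l) :
    PTF (fun c => (l c).drop (n c)) := by
  refine PTF.of_eq (PTF.drop (PTF.natMinUn hn (PTU.length hl)) hl) (fun c => ?_)
  rcases le_total (n c) (l c).length with h | h
  · rw [min_eq_left h]
  · rw [min_eq_right h, List.drop_of_length_le h, List.drop_of_length_le le_rfl]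

theorem ptf_rdWord {s : γ → List (List Bool) × List Bool} (hs : PTF s) :
    PTF (fun c => rdWord (s c)) := by
  unfold rdWord
  have h := ptf_readNat (PTF.comp (g := fun p : List (List Bool) × List Bool => p.2) (by fun_prop) hs)
  have h1 := PTF.comp (g := fun p : ℕ × List Bool => p.1) (by fun_prop) h
  have h2 := PTF.comp (g := fun p : ℕ × List Bool => p.2) (by fun_prop) h
  exact PTF.prodMk (PTF.listCons (ptf_takeB h1 h2)
    (PTF.comp (g := fun p : List (List Bool) × List Bool => p.1) (by fun_prop) hs)) (ptf_dropB h1 h2)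

/-- total length of the words read so far -/
def totLen (ws : List (List Bool)) : ℕ := (ws.map List.length).sum

theorem rdWord_inv (k : ℕ) (s : List (List Bool) × List Bool) :
    (rdWord^[k] s).1.length = s.1.length + k ∧
    totLen (rdWord^[k] s).1 + (rdWord^[k] s).2.length ≤ totLen s.1 + s.2.length := by
  induction k with
  | zero => simp
  | succ k ih =>
    rw [Function.iterate_succ_apply']
    obtain ⟨h1, h2⟩ := ih
    set t := rdWord^[k] s
    have h3 := readNat_len t.2
    constructor
    · simp only [rdWord, List.length_cons, h1]; omega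
    · simp only [rdWord, totLen, List.map_cons, List.sum_cons, List.length_take, List.length_drop]
      unfold totLen at h2
      omega

theorem sz_words_le (ws : List (List Bool)) : sz ws ≤ 6 * totLen ws + ws.length := by
  induction ws with
  | nil => simp [totLen]
  | cons w ws ih =>
    simp only [sz_cons, totLen, List.map_cons, List.sum_cons, List.length_cons, sz_listBool] at *
    omega

theorem ptf_parseInput' {l : γ → List Bool} (hl : PTF l) : PTF (fun c => parseInput (l c)) := by
  unfold parseInput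
  have ha := ptf_readNat hl
  have ha1 := PTF.comp (g := fun p : ℕ × List Bool => p.1) (by fun_prop) ha
  have ha2 := PTF.comp (g := fun p : ℕ × List Bool => p.2) (by fun_prop) ha
  have hb := ptf_readRat ha2
  have hb1 := PTF.comp (g := fun p : (ℕ × ℕ) × List Bool => p.1) (by fun_prop) hb
  have hb2 := PTF.comp (g := fun p : (ℕ × ℕ) × List Bool => p.2) (by fun_prop) hb
  have hc := ptf_readNat hb2
  have hc1 := PTF.comp (g := fun p : ℕ × List Bool => p.1) (by fun_prop) hc
  have hc2 := PTF.comp (g := fun p : ℕ × List Bool => p.2) (by fun_prop) hc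
  have hlen : PTU (fun c => (l c).length) := PTU.length hl
  have hit : PTF (fun c => rdWord^[min (readNat (readRat (readNat (l c)).2).2).1 (l c).length]
      (([] : List (List Bool)), (readNat (readRat (readNat (l c)).2).2).2)) := by
    refine PTF.iterate' (f := fun (_ : γ) s => rdWord s) (PTF.natMinUn hc1 hlen)
      (ptf_rdWord PTF.snd) (PTF.prodMk (PTF.const _) hc2)
      (B := fun c => 2 * (6 * sz (readNat (readRat (readNat (l c)).2).2).2 + (l c).length) + 1
        + 3 * sz (readNat (readRat (readNat (l c)).2).2).2) ?_ ?_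
    · have h1 := hlen.pb
      have h2 := hc2.sz
      fun_prop
    · intro c i hi
      have h := rdWord_inv i (([] : List (List Bool)), (readNat (readRat (readNat (l c)).2).2).2)
      simp only [List.length_nil, zero_add, totLen, List.map_nil, List.sum_nil] at h
      change sz (rdWord^[i] (([] : List (List Bool)), (readNat (readRat (readNat (l c)).2).2).2)) ≤ _
      rw [sz_prod, sz_listBool, sz_listBool]
      have h2 := sz_words_le (rdWord^[i] (([] : List (List Bool)), (readNat (readRat (readNat (l c)).2).2).2)).1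
      unfold totLen at h2
      have h3 : i ≤ (l c).length := hi.trans (min_le_right _ _)
      omega
  exact PTF.prodMk ha1 (PTF.prodMk hb1 (PTF.reverse
    (PTF.comp (g := fun p : List (List Bool) × List Bool => p.1) (by fun_prop) hit)))


/-- a poly-time function of the parsed input is a randomized poly-time algorithm -/
theorem randPolyTime_of_ptf {F : ℕ × (ℕ × ℕ) × List (List Bool) → List Bool} (hF : PTF F) :
    Crest.Randomized.RandPolyTime (fun q : List Bool × List Bool => F (parseInput q.1)) :=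
  PTF.polyTimeComputable_pairEnc (PTF.comp hF (ptf_parseInput' PTF.fst))

end pt

end Crest.Agent.R300.Dec
end

-- ▼ part R300/SdpPTF
section

/-!
# Row 300: the solver is a polynomial-time function
-/

set_option autoImplicit false

namespace Crest.Agent.R300

open Crest.Agent.Lib.PT Finset

section basic

variable {γ α : Type} [PTCode γ] [PTCode α]

/-- list access with a binary index -/
theorem ptf_getDB {n : γ → ℕ} {l : γ → List α} {d : γ → α} (hn : PTF n) (hl : PTF l)
    (hd : PTF d) : PTF (fun c => (l c).getD (n c) (d c)) := by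
  have h := PTF.getD (n := fun c => min (n c) (l c).length) (PTF.natMinUn hn (PTU.length hl)) hl hd
  refine PTF.of_eq h (fun c => ?_)
  rcases lt_or_ge (n c) (l c).length with h | h
  · rw [min_eq_left h.le]
  · rw [min_eq_right h, List.getD_eq_default _ _ le_rfl, List.getD_eq_default _ _ h]

theorem ptf_idxf {idx : γ → List (List ℕ)} {i j : γ → ℕ} (h : PTF idx) (hi : PTF i) (hj : PTF j) :
    PTF (fun c => idxf (idx c) (i c) (j c)) := by
  unfold idxf
  exact ptf_getDB hj (ptf_getDB hi h (PTF.const _)) (PTF.const _)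

theorem ptf_entZ {A : γ → List (List ℤ)} {i j : γ → ℕ} (h : PTF A) (hi : PTF i) (hj : PTF j) :
    PTF (fun c => entZ (A c) (i c) (j c)) := by
  unfold entZ
  exact ptf_getDB hj (ptf_getDB hi h (PTF.const _)) (PTF.const _)

theorem ptf_tabZ {d : γ → ℕ} {f : γ → ℕ → ℕ → ℤ} (hd : PTU d)
    (hf : PTF (fun p : (γ × ℕ) × ℕ => f p.1.1 p.1.2 p.2)) : PTF (fun c => tabZ (d c) (f c)) := by
  unfold tabZ
  refine PTF.tabulate (f := fun c i => (List.range (d c)).map fun j => f c i j) hd ?_
  exact PTF.tabulate (n := fun p : γ × ℕ => d p.1) (f := fun p j => f p.1 p.2 j)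
    (PTU.comp hd PTF.fst) hf

theorem ptf_gridFloor {D : γ → ℕ} {x : γ → ℚ} (hD : PTU D) (hx : PTF x) :
    PTF (fun c => ⌊x c * 2 ^ D c⌋) :=
  PTF.ratFloor (PTF.ratMul hx (PTF.ratPow (f := fun _ => (2 : ℚ)) (PTF.const _) hD))

theorem ptf_matB {D : γ → ℕ} {idx : γ → List (List ℕ)} {u : γ → List ℚ} (hD : PTU D) (hi : PTF idx)
    (hu : PTF u) : PTF (fun c => matB (D c) (idx c) (u c)) := by
  unfold matB
  refine ptf_tabZ (f := fun c i j => (if i = j then ((idx c).length : ℤ) * 2 ^ D c else 0)
    - ⌊(u c).getD (idxf (idx c) i j) 0 * 2 ^ D c⌋) (PTU.length hi) ?_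
  have h11 : PTF (fun p : (γ × ℕ) × ℕ => p.1.1) := by fun_prop
  have h12 : PTF (fun p : (γ × ℕ) × ℕ => p.1.2) := by fun_prop
  have h2 : PTF (fun p : (γ × ℕ) × ℕ => p.2) := by fun_prop
  have hlen : PTF (fun p : (γ × ℕ) × ℕ => (((idx p.1.1).length : ℕ) : ℤ)) :=
    PTF.intNatCast (PTU.toPTF (PTU.comp (n := fun c => (idx c).length) (PTU.length hi) h11))
  have hD' : PTU (fun p : (γ × ℕ) × ℕ => D p.1.1) := PTU.comp hD h11
  refine PTF.intSub (PTF.ite (PTPred.natEq h12 h2) (PTF.intMul hlen
    (PTF.intPow (f := fun _ => (2 : ℤ)) (PTF.const _) hD')) (PTF.const _)) ?_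
  exact ptf_gridFloor hD' (ptf_getDB (ptf_idxf (PTF.comp hi h11) h12 h2) (PTF.comp hu h11)
    (PTF.const _))

theorem ptf_mulZ {d : γ → ℕ} {N A : γ → List (List ℤ)} (hd : PTU d) (hN : PTF N) (hA : PTF A) :
    PTF (fun c => mulZ (d c) (N c) (A c)) := by
  unfold mulZ
  refine ptf_tabZ (f := fun c i j => ∑ l ∈ range (d c), entZ (A c) i l * entZ (N c) l j) hd ?_
  have h11 : PTF (fun p : (γ × ℕ) × ℕ => p.1.1) := by fun_prop
  refine PTF.intSumRange (PTU.comp hd h11) (f := fun (p : (γ × ℕ) × ℕ) (l : ℕ) =>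
    entZ (A p.1.1) p.1.2 l * entZ (N p.1.1) l p.2) ?_
  have g11 : PTF (fun p : ((γ × ℕ) × ℕ) × ℕ => p.1.1.1) := by fun_prop
  have g12 : PTF (fun p : ((γ × ℕ) × ℕ) × ℕ => p.1.1.2) := by fun_prop
  have g1 : PTF (fun p : ((γ × ℕ) × ℕ) × ℕ => p.1.2) := by fun_prop
  have g2 : PTF (fun p : ((γ × ℕ) × ℕ) × ℕ => p.2) := by fun_prop
  exact PTF.intMul (ptf_entZ (PTF.comp hA g11) g12 g2) (ptf_entZ (PTF.comp hN g11) g2 g1)

/-! ### the matrix power -/

theorem sz_int_le {z : ℤ} {n : ℕ} (h : z.natAbs < 2 ^ n) : sz z ≤ 3 + n := by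
  rw [sz_int]
  have := Nat.size_le.2 h
  omega

theorem natAbs_lt_of_sz (z : ℤ) : z.natAbs < 2 ^ sz z := by
  rw [sz_int]
  calc z.natAbs < 2 ^ z.natAbs.size := Nat.lt_size_self _
    _ ≤ _ := Nat.pow_le_pow_right (by norm_num) (by omega)

theorem sz_tabZ_le {d : ℕ} {f : ℕ → ℕ → ℤ} {s : ℕ} (h : ∀ i < d, ∀ j < d, sz (f i j) ≤ s) :
    sz (tabZ d f) ≤ d * (2 * (d * (2 * s + 1)) + 1) := by
  unfold tabZ
  refine (sz_list_le (m := d * (2 * s + 1)) ?_).trans (by simp)
  intro a ha
  obtain ⟨i, hi, rfl⟩ := List.mem_map.1 ha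
  refine (sz_list_le (m := s) ?_).trans (by simp)
  intro b hb
  obtain ⟨j, hj, rfl⟩ := List.mem_map.1 hb
  exact h i (List.mem_range.1 hi) j (List.mem_range.1 hj)

theorem sz_getD_le {l : List α} {k : ℕ} {a : α} : sz (l.getD k a) ≤ sz l + sz a := by
  rcases lt_or_ge k l.length with h | h
  · rw [List.getD_eq_getElem _ _ h]
    have := sz_mem_le (List.getElem_mem h)
    omega
  · rw [List.getD_eq_default _ _ h]
    omega

theorem sz_entZ_le (A : List (List ℤ)) (i j : ℕ) : sz (entZ A i j) ≤ sz A + 3 := by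
  unfold entZ
  have h1 := sz_getD_le (l := A.getD i []) (k := j) (a := (0 : ℤ))
  have h2 := sz_getD_le (l := A) (k := i) (a := ([] : List ℤ))
  have h3 : sz (0 : ℤ) = 3 := by rw [sz_int]; simp
  have h4 : sz ([] : List ℤ) = 0 := rfl
  omega

theorem mulZ_entry_bound {d : ℕ} {N : List (List ℤ)} (m : ℕ) :
    ∀ i < d, ∀ j < d, (entZ ((mulZ d N)^[m] (tabZ d fun i j => if i = j then 1 else 0)) i j).natAbs
      ≤ (d * 2 ^ (sz N + 3) + 1) ^ m := by
  induction m with
  | zero =>
    intro i hi j hj
    rw [Function.iterate_zero, id_eq, entZ_tab _ hi hj]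
    split_ifs <;> simp
  | succ m ih =>
    intro i hi j hj
    rw [Function.iterate_succ_apply']
    set A := (mulZ d N)^[m] (tabZ d fun i j => if i = j then 1 else 0) with hA
    unfold mulZ
    rw [entZ_tab _ hi hj]
    have h1 : (∑ l ∈ range d, entZ A i l * entZ N l j).natAbs
        ≤ ∑ l ∈ range d, (entZ A i l * entZ N l j).natAbs := by
      induction range d using Finset.cons_induction with
      | empty => simp
      | cons a s ha ih' =>
        rw [Finset.sum_cons, Finset.sum_cons]
        exact (Int.natAbs_add_le _ _).trans (Nat.add_le_add_left ih' _)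
    refine h1.trans ?_
    have h2 : ∀ l ∈ range d, (entZ A i l * entZ N l j).natAbs
        ≤ (d * 2 ^ (sz N + 3) + 1) ^ m * 2 ^ (sz N + 3) := by
      intro l hl
      rw [Int.natAbs_mul]
      refine Nat.mul_le_mul (ih i hi l (Finset.mem_range.1 hl)) ?_
      refine (natAbs_lt_of_sz _).le.trans ?_
      exact Nat.pow_le_pow_right (by norm_num) (sz_entZ_le N l j)
    refine (Finset.sum_le_sum h2).trans ?_
    rw [Finset.sum_const, Finset.card_range, smul_eq_mul, pow_succ]
    have aux : ∀ q b : ℕ, d * (q * b) ≤ q * (d * b + 1) := fun q b => by nlinarith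
    exact aux _ _

theorem mulZ_iter_tab {d : ℕ} {N : List (List ℤ)} (m : ℕ) :
    ∃ f : ℕ → ℕ → ℤ, (mulZ d N)^[m] (tabZ d fun i j => if i = j then 1 else 0) = tabZ d f := by
  cases m with
  | zero => exact ⟨_, rfl⟩
  | succ m =>
    rw [Function.iterate_succ_apply']
    exact ⟨_, rfl⟩

theorem sz_mulZ_iter {d : ℕ} {N : List (List ℤ)} (m : ℕ) :
    sz ((mulZ d N)^[m] (tabZ d fun i j => if i = j then 1 else 0))
      ≤ d * (2 * (d * (2 * (3 + (m * (d + (sz N + 3) + 2) + 1)) + 1)) + 1) := by
  obtain ⟨f, hf⟩ := mulZ_iter_tab (d := d) (N := N) m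
  have hb := mulZ_entry_bound (d := d) (N := N) m
  rw [hf] at hb ⊢
  refine sz_tabZ_le fun i hi j hj => ?_
  have h := hb i hi j hj
  rw [entZ_tab _ hi hj] at h
  refine sz_int_le ?_
  refine lt_of_le_of_lt h ?_
  refine lt_of_lt_of_le (Nat.lt_size_self _) ?_
  refine Nat.pow_le_pow_right (by norm_num) ?_
  refine (Arith.size_pow_le _ _).trans ?_
  have h5 : (d * 2 ^ (sz N + 3) + 1).size ≤ d + (sz N + 3) + 2 := by
    rw [Nat.size_le]
    have h6 : d < 2 ^ d := Nat.lt_two_pow_self
    have h7 : 0 < 2 ^ (sz N + 3) := by positivity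
    have e : 2 ^ (d + (sz N + 3) + 2) = 2 ^ d * 2 ^ (sz N + 3) * 4 := by
      rw [pow_add, pow_add]; norm_num
    rw [e]
    have h8 : d * 2 ^ (sz N + 3) ≤ 2 ^ d * 2 ^ (sz N + 3) := Nat.mul_le_mul_right _ h6.le
    have h9 : 0 < 2 ^ d * 2 ^ (sz N + 3) := by positivity
    omega
  have := Nat.mul_le_mul_left m h5
  omega

theorem ptf_matW {D m : γ → ℕ} {idx : γ → List (List ℕ)} {u : γ → List ℚ} (hD : PTU D) (hm : PTU m)
    (hi : PTF idx) (hu : PTF u) : PTF (fun c => matW (D c) (m c) (idx c) (u c)) := by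
  unfold matW
  have hN := ptf_matB hD hi hu
  have hd : PTU (fun c => (idx c).length) := PTU.length hi
  refine PTF.iterate' (f := fun c A => mulZ (idx c).length (matB (D c) (idx c) (u c)) A)
    (a := fun c => tabZ (idx c).length fun i j => if i = j then 1 else 0) hm ?_ ?_
    (B := fun c => (idx c).length * (2 * ((idx c).length * (2 * (3 + (m c * ((idx c).length
      + (sz (matB (D c) (idx c) (u c)) + 3) + 2) + 1)) + 1)) + 1)) ?_ ?_
  · exact ptf_mulZ (PTU.comp (n := fun c => (idx c).length) hd PTF.fst) (PTF.comp hN PTF.fst) PTF.snd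
  · refine ptf_tabZ (f := fun _ i j => if i = j then (1 : ℤ) else 0) hd ?_
    exact PTF.ite (PTPred.natEq (by fun_prop) (by fun_prop)) (PTF.const _) (PTF.const _)
  · have h1 := hd.pb
    have h2 := hm.pb
    have h3 := hN.sz
    fun_prop
  · intro c i hi
    refine (sz_mulZ_iter i).trans ?_
    have h1 : i * ((idx c).length + (sz (matB (D c) (idx c) (u c)) + 3) + 2)
      ≤ m c * ((idx c).length + (sz (matB (D c) (idx c) (u c)) + 3) + 2) := Nat.mul_le_mul_right _ hi
    gcongr

/-! ### the oracle -/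

theorem ptf_rowP {W : γ → List (List ℤ)} {K : γ → ℕ} {idx : γ → List (List ℕ)} (hW : PTF W)
    (hK : PTU K) (hi : PTF idx) : PTF (fun c => rowP (W c) (K c) (idx c)) := by
  unfold rowP
  refine PTF.tabulate (f := fun c k => ∑ i ∈ range (idx c).length, ∑ j ∈ range (idx c).length,
    if idxf (idx c) i j = k then entZ (W c) i j else 0) hK ?_
  have hd : PTU (fun c => (idx c).length) := PTU.length hi
  refine PTF.intSumRange (n := fun p : γ × ℕ => (idx p.1).length) (f := fun (p : γ × ℕ) (i : ℕ) =>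
    ∑ j ∈ range (idx p.1).length, if idxf (idx p.1) i j = p.2 then entZ (W p.1) i j else 0)
    (PTU.comp (n := fun c => (idx c).length) hd PTF.fst) ?_
  have h11 : PTF (fun p : (γ × ℕ) × ℕ => p.1.1) := by fun_prop
  refine PTF.intSumRange (n := fun p : (γ × ℕ) × ℕ => (idx p.1.1).length)
    (f := fun (p : (γ × ℕ) × ℕ) (j : ℕ) => if idxf (idx p.1.1) p.2 j = p.1.2
      then entZ (W p.1.1) p.2 j else 0)
    (PTU.comp (n := fun c => (idx c).length) hd h11) ?_
  have g11 : PTF (fun p : ((γ × ℕ) × ℕ) × ℕ => p.1.1.1) := by fun_prop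
  have g12 : PTF (fun p : ((γ × ℕ) × ℕ) × ℕ => p.1.1.2) := by fun_prop
  have g1 : PTF (fun p : ((γ × ℕ) × ℕ) × ℕ => p.1.2) := by fun_prop
  have g2 : PTF (fun p : ((γ × ℕ) × ℕ) × ℕ => p.2) := by fun_prop
  exact PTF.ite (PTPred.natEq (ptf_idxf (PTF.comp hi g11) g1 g2) g12)
    (ptf_entZ (PTF.comp hW g11) g1 g2) (PTF.const _)

theorem ptf_valS {D K : γ → ℕ} {P : γ → List ℤ} {u : γ → List ℚ} (hD : PTU D) (hK : PTU K)
    (hP : PTF P) (hu : PTF u) : PTF (fun c => valS (D c) (K c) (P c) (u c)) := by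
  unfold valS
  refine PTF.intSumRange (f := fun c k => (P c).getD k 0 * ⌊(u c).getD k 0 * 2 ^ D c⌋) hK ?_
  exact PTF.intMul (ptf_getDB PTF.snd (PTF.comp hP PTF.fst) (PTF.const _))
    (ptf_gridFloor (PTU.comp hD PTF.fst) (ptf_getDB PTF.snd (PTF.comp hu PTF.fst) (PTF.const _)))

theorem ptf_nrmP {K : γ → ℕ} {P : γ → List ℤ} (hK : PTU K)
    (hP : PTF P) : PTF (fun c => nrmP (K c) (P c)) := by
  unfold nrmP
  refine PTF.intSumRange (f := fun c k => (P c).getD k 0 * (P c).getD k 0) hK ?_
  exact PTF.intMul (ptf_getDB PTF.snd (PTF.comp hP PTF.fst) (PTF.const _))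
    (ptf_getDB PTF.snd (PTF.comp hP PTF.fst) (PTF.const _))

theorem ptf_psdOrc {D m K L : γ → ℕ} {idx : γ → List (List ℕ)} {u : γ → List ℚ} (hD : PTU D)
    (hm : PTU m) (hK : PTU K) (hL : PTF L) (hi : PTF idx) (hu : PTF u) :
    PTF (fun c => psdOrc (D c) (m c) (K c) (L c) (idx c) (u c)) := by
  unfold psdOrc
  have hP := ptf_rowP (ptf_matW hD hm hi hu) hK hi
  have hV := ptf_valS hD hK hP hu
  have hN := ptf_nrmP hK hP
  refine PTF.ite (PTPred.and (PTPred.intLt hV (PTF.const _)) (PTPred.intLe
    (PTF.intMul (PTF.intPow (f := fun _ => (4 : ℤ)) (PTF.const _) hD) hN)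
    (PTF.intMul (PTF.intNatCast hL) (PTF.intMul hV hV)))) ?_ (PTF.const _)
  exact PTF.optSome (PTF.map hP (PTF.ratIntCast PTF.snd))

/-! ### the steps -/

theorem ptf_dotQ {a b : γ → List ℚ} (ha : PTF a) (hb : PTF b) : PTF (fun c => dotQ (a c) (b c)) := by
  unfold dotQ
  exact PTF.ratListSum (PTF.zipWith ha hb (PTF.ratMul (by fun_prop) (by fun_prop)))

theorem ptf_residQ {u : γ → List ℚ} {c : γ → PCon} (hu : PTF u) (hc : PTF c) :
    PTF (fun a => residQ (u a) (c a)) := by
  unfold residQ
  exact PTF.ratSub (ptf_dotQ (by fun_prop) hu) (by fun_prop)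

theorem ptf_clipQ {M : γ → ℕ} {x : γ → ℚ} (hM : PTF M) (hx : PTF x) :
    PTF (fun c => clipQ (M c) (x c)) := by
  unfold clipQ
  have hM' : PTF (fun c => ((M c : ℕ) : ℚ)) := PTF.ratNatCast hM
  exact PTF.ratMax (PTF.ratNeg hM') (PTF.ratMin hM' hx)

theorem ptf_rndQ {D : γ → ℕ} {x : γ → ℚ} (hD : PTU D) (hx : PTF x) :
    PTF (fun c => rndQ (D c) (x c)) := by
  unfold rndQ
  exact PTF.ratDiv (PTF.ratIntCast (ptf_gridFloor hD hx))
    (PTF.ratPow (f := fun _ => (2 : ℚ)) (PTF.const _) hD)

theorem ptf_updQ {D M : γ → ℕ} {u : γ → List ℚ} {c : γ → PCon} (hD : PTU D) (hM : PTF M)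
    (hu : PTF u) (hc : PTF c) : PTF (fun a => updQ (D a) (M a) (u a) (c a)) := by
  unfold updQ
  have hr : PTF (fun a => residQ (u a) (c a) / dotQ (c a).1 (c a).1) :=
    PTF.ratDiv (ptf_residQ hu hc) (ptf_dotQ (by fun_prop) (by fun_prop))
  refine PTF.zipWith (f := fun a x r => rndQ (D a) (clipQ (M a) (x - r * (residQ (u a) (c a) /
    dotQ (c a).1 (c a).1)))) hu (by fun_prop) ?_
  exact ptf_rndQ (PTU.comp hD PTF.fst) (ptf_clipQ (PTF.comp hM PTF.fst)
    (PTF.ratSub (by fun_prop) (PTF.ratMul (by fun_prop) (PTF.comp hr PTF.fst))))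

/-- the violation test -/
theorem ptf_find {cons : γ → List PCon} {u : γ → List ℚ} (hc : PTF cons) (hu : PTF u) :
    PTF (fun a => (cons a).find? (fun c => decide (3 * c.2.2 < |residQ (u a) c|))) := by
  refine PTF.find? hc ?_
  have h1 : PTF (fun p : γ × PCon => 3 * p.2.2.2) := PTF.ratMul (PTF.const _) (by fun_prop)
  have h2 : PTF (fun p : γ × PCon => |residQ (u p.1) p.2|) :=
    PTF.ratAbs (ptf_residQ (PTF.comp hu PTF.fst) PTF.snd)
  exact (PTPred.ratLt h1 h2).toPTF

theorem ptf_ostepQ {D M : γ → ℕ} {cons : γ → List PCon} {orc : γ → List ℚ → Option (List ℚ)}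
    {u : γ → List ℚ} (hD : PTU D) (hM : PTF M) (hc : PTF cons) (ho : PTF₂ orc) (hu : PTF u) :
    PTF (fun a => ostepQ (D a) (M a) (cons a) (orc a) (u a)) := by
  have h1 : PTF (fun a => (orc a) (u a)) := PTF.comp₂ ho PTF.id hu
  have h2 : PTF (fun a => match orc a (u a) with
      | none => u a
      | some P => updQ (D a) (M a) (u a) (P, 0, 0)) := by
    have := PTF.optionCasesOn (s := fun a => orc a (u a)) (f := fun a => u a)
      (g := fun a P => updQ (D a) (M a) (u a) (P, 0, 0)) h1 hu
      (ptf_updQ (PTU.comp hD PTF.fst) (PTF.comp hM PTF.fst) (PTF.comp hu PTF.fst)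
        (PTF.prodMk PTF.snd (PTF.const _)))
    refine PTF.of_eq this (fun a => ?_)
    cases orc a (u a) <;> rfl
  have h3 := PTF.optionCasesOn (s := fun a => (cons a).find? (fun c => decide (3 * c.2.2 < |residQ (u a) c|)))
    (g := fun a c => updQ (D a) (M a) (u a) c) (ptf_find hc hu) h2
      (ptf_updQ (PTU.comp hD PTF.fst) (PTF.comp hM PTF.fst) (PTF.comp hu PTF.fst) PTF.snd)
  refine PTF.of_eq h3 (fun a => ?_)
  unfold ostepQ
  cases (cons a).find? (fun c => decide (3 * c.2.2 < |residQ (u a) c|)) <;> rfl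

/-! ### size of the states -/

/-- invariant of the states used for the size bound -/
def SInv (D M K : ℕ) (v : List ℚ) : Prop :=
  v.length ≤ K ∧ ∀ x ∈ v, |x| ≤ M ∧ ∃ z : ℤ, x = z / 2 ^ D

theorem SInv.zero (D M K : ℕ) : SInv D M K (List.replicate K 0) := by
  refine ⟨by simp, fun x hx => ?_⟩
  rw [List.eq_of_mem_replicate hx]
  exact ⟨by simp, 0, by simp⟩

theorem SInv.updQ {D M K : ℕ} {v : List ℚ} (hv : SInv D M K v) (c : PCon) :
    SInv D M K (updQ D M v c) := by
  refine ⟨?_, fun x hx => ?_⟩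
  · unfold R300.updQ
    rw [List.length_zipWith]
    exact (min_le_left _ _).trans hv.1
  · unfold R300.updQ at hx
    obtain ⟨i, hi, rfl⟩ := List.mem_iff_getElem.1 hx
    rw [List.getElem_zipWith]
    exact ⟨rndQ_abs_le (clipQ_abs_le _ _), _, rfl⟩

theorem SInv.ostepQ {D M K : ℕ} {v : List ℚ} (hv : SInv D M K v) (cons : List PCon)
    (orc : List ℚ → Option (List ℚ)) : SInv D M K (ostepQ D M cons orc v) := by
  unfold R300.ostepQ
  split
  · split
    · exact hv
    · exact hv.updQ _
  · exact hv.updQ _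

theorem SInv.iter {D M K : ℕ} {v : List ℚ} (hv : SInv D M K v) (cons : List PCon)
    (orc : List ℚ → Option (List ℚ)) (T : ℕ) : SInv D M K ((R300.ostepQ D M cons orc)^[T] v) := by
  induction T with
  | zero => exact hv
  | succ T ih =>
    rw [Function.iterate_succ_apply']
    exact ih.ostepQ cons orc

theorem sz_grid_le {D M : ℕ} {x : ℚ} (hx : |x| ≤ M) (hz : ∃ z : ℤ, x = z / 2 ^ D) :
    sz x ≤ 2 * (3 + (M + D)) + 1 + (D + 1) := by
  obtain ⟨z, hz⟩ := hz
  have hden : x.den ∣ 2 ^ D := by
    have h := Rat.den_dvd z (2 ^ D)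
    have e : Rat.divInt z (2 ^ D) = x := by
      rw [hz, Rat.divInt_eq_div]; push_cast; rfl
    rw [e] at h
    exact_mod_cast h
  have hden2 : x.den ≤ 2 ^ D := Nat.le_of_dvd (by positivity) hden
  have hnum : x.num.natAbs < 2 ^ (M + D) := by
    have h1 : (x.num.natAbs : ℚ) = |x| * x.den := by
      have h2 : |x| = |(x.num : ℚ)| / x.den := by
        conv_lhs => rw [← Rat.num_div_den x]
        rw [abs_div, Nat.abs_cast]
      have h3 : (x.den : ℚ) ≠ 0 := by exact_mod_cast x.den_nz
      rw [h2, div_mul_cancel₀ _ h3]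
      rw [Nat.cast_natAbs]
      push_cast
      rfl
    have h4 : (x.num.natAbs : ℚ) ≤ M * 2 ^ D := by
      rw [h1]
      apply mul_le_mul hx _ (by positivity) (by positivity)
      exact_mod_cast hden2
    have h5 : x.num.natAbs ≤ M * 2 ^ D := by exact_mod_cast h4
    have h6 : M < 2 ^ M := Nat.lt_two_pow_self
    have h7 : 0 < 2 ^ D := by positivity
    rw [pow_add]
    nlinarith
  rw [sz_rat]
  have h8 : x.num.natAbs.size ≤ M + D := Nat.size_le.2 hnum
  have h9 : x.den.size ≤ D + 1 := by
    rw [Nat.size_le]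
    have : 2 ^ D < 2 ^ (D + 1) := Nat.pow_lt_pow_right (by norm_num) (by omega)
    omega
  omega

theorem SInv.sz_le {D M K : ℕ} {v : List ℚ} (hv : SInv D M K v) :
    sz v ≤ K * (2 * (2 * (3 + (M + D)) + 1 + (D + 1)) + 1) := by
  refine (sz_list_le (m := 2 * (3 + (M + D)) + 1 + (D + 1)) fun x hx =>
    sz_grid_le (hv.2 x hx).1 (hv.2 x hx).2).trans ?_
  exact Nat.mul_le_mul_right _ hv.1

theorem ptf_osolveQ {T D M K : γ → ℕ} {cons : γ → List PCon} {orc : γ → List ℚ → Option (List ℚ)}
    (hT : PTU T) (hD : PTU D) (hM : PTU M) (hK : PTU K) (hc : PTF cons) (ho : PTF₂ orc) :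
    PTF (fun a => osolveQ (T a) (D a) (M a) (K a) (cons a) (orc a)) := by
  unfold osolveQ
  refine PTF.iterate' (f := fun a u => ostepQ (D a) (M a) (cons a) (orc a) u)
    (a := fun a => List.replicate (K a) 0) hT ?_ (PTF.replicate hK (PTF.const _))
    (B := fun a => K a * (2 * (2 * (3 + (M a + D a)) + 1 + (D a + 1)) + 1)) ?_ ?_
  · refine ptf_ostepQ (orc := fun (p : γ × List ℚ) v => orc p.1 v) (PTU.comp hD PTF.fst)
      (PTF.comp (PTU.toPTF hM) PTF.fst) (PTF.comp hc PTF.fst) ?_ PTF.snd
    exact PTF.comp₂ ho (by fun_prop) PTF.snd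
  · have h1 := hD.pb
    have h2 := hM.pb
    have h3 := hK.pb
    fun_prop
  · intro c i _
    exact ((SInv.zero _ _ _).iter _ _ i).sz_le

/-- **The solver is a polynomial-time function** (all numeric parameters but the entries in
unary). -/
theorem PTF.sdpRun {G K : γ → ℕ} {idx : γ → List (List ℕ)} {cons : γ → List PCon} (hG : PTU G)
    (hK : PTU K) (hidx : PTF idx) (hcons : PTF cons) :
    PTF (fun a => sdpRun (G a) (K a) (idx a) (cons a)) := by
  unfold R300.sdpRun
  have hT : PTU (fun a => 8 * G a ^ 5 * (G a + 1) ^ 2 + 1) :=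
    PTU.add (PTU.mul (PTU.mul (PTU.const 8) (PTU.pow hG 5)) (PTU.pow (PTU.add hG (PTU.const 1)) 2))
      (PTU.const 1)
  have hD : PTU (fun a => 10 * G a + 10) := PTU.add (PTU.mul (PTU.const 10) hG) (PTU.const 10)
  have hm : PTU (fun a => 2 * (G a * G a * (3 * G a + 1))) :=
    PTU.mul (PTU.const 2) (PTU.mul (PTU.mul hG hG) (PTU.add (PTU.mul (PTU.const 3) hG) (PTU.const 1)))
  have hL : PTU (fun a => (2 * G a * G a * (G a + 1)) ^ 2) :=
    PTU.pow (PTU.mul (PTU.mul (PTU.mul (PTU.const 2) hG) hG) (PTU.add hG (PTU.const 1))) 2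
  refine ptf_osolveQ (M := fun _ => 1) (orc := fun a u => psdOrc (10 * G a + 10)
    (2 * (G a * G a * (3 * G a + 1))) (K a) ((2 * G a * G a * (G a + 1)) ^ 2) (idx a) u)
    hT hD (PTU.const 1) hK hcons ?_
  exact ptf_psdOrc (PTU.comp (n := fun a => 10 * G a + 10) hD PTF.fst)
    (PTU.comp (n := fun a => 2 * (G a * G a * (3 * G a + 1))) hm PTF.fst) (PTU.comp hK PTF.fst)
    (PTF.comp (PTU.toPTF hL) PTF.fst) (PTF.comp hidx PTF.fst) PTF.snd

end basic

end Crest.Agent.R300
end

-- ▼ part R300/Dec/ProgPT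
section

/-!
# Row 300, machine side: the decoder program is polynomial time
-/

set_option autoImplicit false
set_option linter.dupNamespace false

namespace Crest.Agent.R300.Dec

open Crest.Agent.Lib.PT

/-- parameter bound -/
theorem pow_parK_le' (n m : ℕ) (hm : 1 ≤ m) : (n + 1) ^ (64 * parK n m) ≤ m := by
  have h1 : n + 1 ≤ 2 ^ n.size := Nat.lt_size_self n
  calc (n + 1) ^ (64 * parK n m) ≤ (2 ^ n.size) ^ (64 * parK n m) := Nat.pow_le_pow_left h1 _
    _ = 2 ^ (parK n m * (64 * n.size)) := by rw [← pow_mul]; congr 1; ring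
    _ ≤ 2 ^ Nat.log 2 m := Nat.pow_le_pow_right (by norm_num) (Nat.div_mul_le_self _ _)
    _ ≤ m := Nat.pow_log_le_self 2 (by omega)

section ptf

variable {γ : Type} [PTCode γ]

theorem ptu_log {m : γ → ℕ} (hm : PTU m) : PTU (fun c => Nat.log 2 (m c)) :=
  PTU.of_eq (PTF.natMinUn (PTF.natLog (PTF.const 2) (PTU.toPTF hm)) hm)
    (fun c => min_eq_left (Nat.log_le_self 2 (m c)))

theorem ptu_parK {n m : γ → ℕ} (hn : PTF n) (hm : PTU m) :
    PTU (fun c => parK (n c) (m c)) := by
  have h := ptu_log hm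
  unfold parK
  refine PTU.of_eq (PTF.natMinUn (PTF.natDiv (PTU.toPTF h)
    (PTF.natMul (PTF.const 64) (PTU.toPTF (PTF.natSizeUn hn)))) h) (fun c => ?_)
  exact min_eq_left (Nat.div_le_self _ _)

theorem ptf_parTol {m : γ → ℕ} (hm : PTU m) : PTF (fun c => parTol (m c)) := by
  unfold parTol
  refine PTF.ratDiv (PTF.const 1) (PTF.ratPow (PTF.const 2) ?_)
  have h := ptu_log hm
  have h8 : PTU (fun c => Nat.log 2 (m c) / 8) :=
    PTU.of_eq (PTF.natMinUn (PTF.natDiv (PTU.toPTF h) (PTF.const 8)) h)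
      (fun c => min_eq_left (Nat.div_le_self _ _))
  exact PTU.mul (PTU.const 2) h8

theorem ptf_emp {J : γ → List Bool} {Ys : γ → List (List Bool)} (hJ : PTF J) (hY : PTF Ys) :
    PTF (fun c => emp (J c) (Ys c)) := by
  unfold emp
  refine PTF.ratDiv (PTF.ratNatCast (PTU.toPTF ?_)) (PTF.ratNatCast (PTU.toPTF (PTU.length hY)))
  refine PTU.countP (p := fun c y => hit (J c) y) hY ?_
  exact ptf_hit (PTF.comp hJ PTF.fst) PTF.snd

theorem ptf_statsOf {n K : γ → ℕ} {Ys : γ → List (List Bool)} (hn : PTU n) (hK : PTU K)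
    (hB : PB (fun c => (n c + 1) ^ K c)) (hY : PTF Ys) :
    PTF (fun c => statsOf (n c) (K c) (Ys c)) := by
  unfold statsOf
  refine PTF.map (f := fun c J => (J, emp J (Ys c))) (ptf_masks hn hK hB) ?_
  exact PTF.prodMk PTF.snd (ptf_emp PTF.snd (PTF.comp hY PTF.fst))

theorem ptf_unitRow {N d : γ → ℕ} (hN : PTU N) (hd : PTU d)
    (hB : PB (fun c => (N c + 1) ^ d c)) : PTF (fun c => unitRow (N c) (d c)) := by
  unfold unitRow
  refine PTF.map (f := fun c R => if R = List.replicate (N c) false then (1 : ℚ) else 0)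
    (ptf_masks hN hd hB) ?_
  refine PTF.ite (p := fun q : γ × List Bool => q.2 = List.replicate (N q.1) false)
    (PTPred.eq PTF.snd (PTF.replicate (PTU.comp hN PTF.fst) (PTF.const false)))
    (PTF.const 1) (PTF.const 0)

theorem ptf_consOf {m a b n K : γ → ℕ} {st : γ → List (List Bool × ℚ)} {w : γ → List Bool}
    (hm : PTU m) (ha : PTF a) (hb : PTF b) (hn : PTU n) (hK : PTU K)
    (hB : PB (fun c => (n c + 1) ^ (2 * (2 * K c)))) (hst : PTF st) (hw : PTF w) :
    PTF (fun c => consOf (m c) (a c) (b c) (n c) (K c) (st c) (w c)) := by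
  have hN : PTU (fun c => n c - (w c).length) := PTU.sub hn (PTU.length hw)
  have hd : PTU (fun c => 2 * (2 * K c)) := PTU.mul (PTU.const 2) (PTU.mul (PTU.const 2) hK)
  have hB1 : PB (fun c => (n c - (w c).length + 1) ^ (2 * (2 * K c))) :=
    hB.mono fun c => Nat.pow_le_pow_left (by omega) _
  have hB2 : PB (fun c => (n c + 1) ^ K c) :=
    hB.mono fun c => Nat.pow_le_pow_right (by omega) (by omega)
  unfold consOf
  refine PTF.listCons (PTF.prodMk (ptf_unitRow hN hd hB1) (PTF.prodMk (PTF.const 1)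
    (PTF.ratDiv (PTF.const 1) (PTF.ratNatCast (PTU.toPTF hm))))) ?_
  refine PTF.map (f := fun c Jt => (rowOf (n c - (w c).length) (2 * (2 * K c))
    (terms (a c) (b c) (n c) (K c) (w c) Jt.1 Jt.2), (0 : ℚ), parTol (m c))) hst ?_
  have hfst : PTF (fun q : γ × (List Bool × ℚ) => q.1) := PTF.fst
  refine PTF.prodMk (ptf_rowOf (N := fun q : γ × (List Bool × ℚ) => n q.1 - (w q.1).length)
    (d := fun q => 2 * (2 * K q.1))
    (P := fun q => terms (a q.1) (b q.1) (n q.1) (K q.1) (w q.1) q.2.1 q.2.2)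
    (PTU.comp hN hfst) (PTU.comp (n := fun c => 2 * (2 * K c)) hd hfst) (hB1.comp hfst) ?_)
    (PTF.prodMk (PTF.const 0) (PTF.comp (g := fun c => parTol (m c)) (ptf_parTol hm) hfst))
  exact ptf_terms (PTF.comp ha hfst) (PTF.comp hb hfst) (PTU.comp hn hfst) (PTU.comp hK hfst)
    (PTF.comp hw hfst) (by fun_prop) (by fun_prop) (hB2.comp hfst)

theorem ptf_solOf {m a b n K : γ → ℕ} {st : γ → List (List Bool × ℚ)} {w : γ → List Bool}
    (hm : PTU m) (ha : PTF a) (hb : PTF b) (hn : PTU n) (hK : PTU K)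
    (hB : PB (fun c => (n c + 1) ^ (2 * (2 * K c)))) (hst : PTF st) (hw : PTF w) :
    PTF (fun c => solOf (m c) (a c) (b c) (n c) (K c) (st c) (w c)) := by
  have hN : PTU (fun c => n c - (w c).length) := PTU.sub hn (PTU.length hw)
  have hd : PTU (fun c => 2 * (2 * K c)) := PTU.mul (PTU.const 2) (PTU.mul (PTU.const 2) hK)
  have hB1 : PB (fun c => (n c - (w c).length + 1) ^ (2 * (2 * K c))) :=
    hB.mono fun c => Nat.pow_le_pow_left (by omega) _
  unfold solOf
  exact PTF.sdpRun hm (PTU.length (ptf_masks hN hd hB1))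
    (ptf_idxTab hN (PTU.mul (PTU.const 2) hK) hB1) (ptf_consOf hm ha hb hn hK hB hst hw)

theorem ptf_nextBit {m a b n K : γ → ℕ} {st : γ → List (List Bool × ℚ)} {w : γ → List Bool}
    (hm : PTU m) (ha : PTF a) (hb : PTF b) (hn : PTU n) (hK : PTU K)
    (hB : PB (fun c => (n c + 1) ^ (2 * (2 * K c)))) (hst : PTF st) (hw : PTF w) :
    PTF (fun c => nextBit (m c) (a c) (b c) (n c) (K c) (st c) (w c)) := by
  have hN : PTU (fun c => n c - (w c).length) := PTU.sub hn (PTU.length hw)
  have hd : PTU (fun c => 2 * (2 * K c)) := PTU.mul (PTU.const 2) (PTU.mul (PTU.const 2) hK)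
  have hB1 : PB (fun c => (n c - (w c).length + 1) ^ (2 * (2 * K c))) :=
    hB.mono fun c => Nat.pow_le_pow_left (by omega) _
  have hsol := ptf_solOf hm ha hb hn hK hB hst hw
  have hmask := ptf_masks hN hd hB1
  have hN1 : PTU (fun c => n c - (w c).length - 1) := PTU.sub hN (PTU.const 1)
  have hp0 : PTU (fun c => pos (masks (n c - (w c).length) (2 * (2 * K c)))
      (List.replicate (n c - (w c).length) false)) :=
    ptu_pos hmask (PTF.replicate hN (PTF.const false))
  have hp1 : PTU (fun c => pos (masks (n c - (w c).length) (2 * (2 * K c)))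
      (true :: List.replicate (n c - (w c).length - 1) false)) :=
    ptu_pos hmask (PTF.listCons (PTF.const true) (PTF.replicate hN1 (PTF.const false)))
  unfold nextBit
  exact (PTPred.ratLt (PTF.getD hp0 hsol (PTF.const 0))
    (PTF.ratMul (PTF.const 2) (PTF.getD hp1 hsol (PTF.const 0)))).toPTF

/-- one round of the letter loop keeps the length under control -/
theorem loop_length (g : List Bool → Bool) (i : ℕ) :
    ((fun w => w ++ [g w])^[i] []).length = i := by
  induction i with
  | zero => rfl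
  | succ i ih => rw [Function.iterate_succ_apply', List.length_append, ih]; rfl

/-- **The decoder is polynomial time.** -/
theorem ptf_decodeW {a b n : γ → ℕ} {Ys : γ → List (List Bool)} (ha : PTF a) (hb : PTF b)
    (hn : PTF n) (hY : PTF Ys) : PTF (fun c => decodeW (a c) (b c) (n c) (Ys c)) := by
  have hm : PTU (fun c => (Ys c).length) := PTU.length hY
  have hN : PTU (fun c => min (n c) (Ys c).length) := PTF.natMinUn hn hm
  have hK : PTU (fun c => parK (min (n c) (Ys c).length) (Ys c).length) :=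
    ptu_parK (PTU.toPTF hN) hm
  have hBig : PB (fun c => (min (n c) (Ys c).length + 1) ^
      (2 * (2 * parK (min (n c) (Ys c).length) (Ys c).length))) := by
    refine PB.mono (g := fun c => (Ys c).length + 1) ?_ fun c => ?_
    · have := hm.pb
      fun_prop
    · rcases Nat.eq_zero_or_pos (Ys c).length with h | h
      · rw [h]; simp
      · refine le_trans (Nat.pow_le_pow_right (by omega) ?_)
          ((pow_parK_le' (min (n c) (Ys c).length) (Ys c).length h).trans (Nat.le_succ _))
        omega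
  have hB2 : PB (fun c => (min (n c) (Ys c).length + 1) ^
      parK (min (n c) (Ys c).length) (Ys c).length) :=
    hBig.mono fun c => Nat.pow_le_pow_right (by omega) (by omega)
  have hst := ptf_statsOf hN hK hB2 hY
  have hfst : PTF (fun q : γ × List Bool => q.1) := PTF.fst
  unfold decodeW decodeCore
  refine PTF.iterate' (f := fun c w => w ++ [nextBit (Ys c).length (a c) (b c)
    (min (n c) (Ys c).length) (parK (min (n c) (Ys c).length) (Ys c).length)
    (statsOf (min (n c) (Ys c).length) (parK (min (n c) (Ys c).length) (Ys c).length) (Ys c)) w])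
    (a := fun _ => []) hN ?_ (PTF.const []) (B := fun c => 3 * min (n c) (Ys c).length) ?_ ?_
  · refine PTF.append PTF.snd (PTF.listCons ?_ (PTF.const []))
    exact ptf_nextBit (PTU.comp (n := fun c => (Ys c).length) hm hfst) (PTF.comp ha hfst)
      (PTF.comp hb hfst) (PTU.comp (n := fun c => min (n c) (Ys c).length) hN hfst)
      (PTU.comp (n := fun c => parK (min (n c) (Ys c).length) (Ys c).length) hK hfst)
      (hBig.comp hfst) (PTF.comp (g := fun c => statsOf (min (n c) (Ys c).length)
        (parK (min (n c) (Ys c).length) (Ys c).length) (Ys c)) hst hfst) PTF.snd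
  · have := hN.pb
    fun_prop
  · intro c i hi
    rw [sz_listBool, loop_length]
    omega

end ptf

/-- the algorithm of S0457 -/
def decA (q : List Bool × List Bool) : List Bool :=
  decodeW (parseInput q.1).2.1.1 (parseInput q.1).2.1.2 (parseInput q.1).1 (parseInput q.1).2.2

theorem randPolyTime_decA : Crest.Randomized.RandPolyTime decA := by
  have h : PTF (fun x : ℕ × (ℕ × ℕ) × List (List Bool) => decodeW x.2.1.1 x.2.1.2 x.1 x.2.2) :=
    ptf_decodeW (by fun_prop) (by fun_prop) (by fun_prop) (by fun_prop)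
  exact randPolyTime_of_ptf h

end Crest.Agent.R300.Dec
end

-- ▼ part R300/Dec/Final

/-!
# Row 300, machine side: assembly of S0457
-/

set_option autoImplicit false
set_option linter.dupNamespace false

namespace Crest.Agent.R300.Dec

open Crest.Agent.R300U (TT PE Prefix Data Ident dev xv mono That UMainStatement)
open Crest.FinProb Crest.TraceRecon Crest.Randomized

/-- the statement about the solver -/
def SolOutStatement : Prop :=
  ∀ (m a b n K : ℕ) (w : List Bool) (z : Fin (n - w.length) → Bool) (st : List (List Bool × ℚ)),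
    a ≤ b → 0 < b → w.length < n → (n + 1) ^ (64 * K) ≤ 2 ^ Nat.log 2 m → 10000 ≤ Nat.log 2 m →
    (∀ Jt ∈ st, Jt.1.length = n ∧ Jt.1.count true ≤ K ∧ 0 ≤ Jt.2 ∧ Jt.2 ≤ 1 ∧
      ((Jt.2 : ℝ) - eT ((a : ℝ) / (b : ℝ)) (w ++ List.ofFn z) Jt.1) ^ 2 ≤ ((parTol m : ℚ) : ℝ)) →
    SolOut m a b n K st w

theorem solOutStatement : SolOutStatement := by
  intro m a b n K w z st hab hb hw hpow hL hst
  exact solOut hab hb hw z hpow hL hst

theorem le_log_of_M0 {m : ℕ} (h : 2 ^ 10000 ≤ m) : 10000 ≤ Nat.log 2 m :=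
  Nat.le_log_of_pow_le (by norm_num) h

theorem n_le_of_K {n m : ℕ} (hm : 1 ≤ m) (h : 1 ≤ Nat.log 2 m / (64 * Nat.size n)) : n ≤ m := by
  have h1 : 64 * Nat.size n ≤ Nat.log 2 m := by
    by_contra hcon
    rw [Nat.div_eq_of_lt (by omega)] at h
    omega
  have h2 : n < 2 ^ Nat.size n := Nat.lt_size_self n
  have h3 : 2 ^ Nat.size n ≤ 2 ^ Nat.log 2 m := Nat.pow_le_pow_right (by norm_num) (by omega)
  have h4 : 2 ^ Nat.log 2 m ≤ m := Nat.pow_log_le_self 2 (by omega)
  omega

theorem cast_p {p : ℚ} (hp0 : 0 < p) : ((p.num.natAbs : ℕ) : ℝ) / ((p.den : ℕ) : ℝ) = (p : ℝ) := by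
  have h1 : ((p.num.natAbs : ℕ) : ℤ) = p.num := Int.natAbs_of_nonneg (Rat.num_nonneg.2 hp0.le)
  have h2 : ((p.num.natAbs : ℕ) : ℝ) = ((p.num : ℤ) : ℝ) := by
    rw [← h1]; simp
  rw [h2]
  exact (Rat.cast_def p).symm

theorem natAbs_le_den {p : ℚ} (hp0 : 0 < p) (hp1 : p < 1) : p.num.natAbs ≤ p.den := by
  have h1 : ((p.num.natAbs : ℕ) : ℤ) = p.num := Int.natAbs_of_nonneg (Rat.num_nonneg.2 hp0.le)
  have h2 : p.num < p.den := by
    rw [← Rat.num_lt_denom_iff] at hp1; exact hp1
  omega

theorem final_of (hU : UMainStatement) (hS : SolOutStatement) :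
    ∃ C : ℝ, 1 ≤ C ∧ ∃ (A : List Bool × List Bool → List Bool) (r : Polynomial ℕ), RandPolyTime A ∧
      ∀ n : ℕ, 2 ≤ n → ∀ p : ℚ, 0 < p → p < 1 → ∀ x : Fin n → Bool,
        2 / 3 ≤ decoderSuccessProb (traceBudget C n p) p A r x := by
  refine R300U.decoder_of_correct hU 64 9 8 (2 ^ 10000) (by norm_num) (by norm_num) (by norm_num)
    decA 0 randPolyTime_decA ?_
  intro n hn p hp0 hp1 m hM0 hm1 hK x τ _ hgood hId tape
  rw [Nat.log2_eq_log_two] at hK hId
  simp only [Nat.log2_eq_log_two] at hgood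
  have hL := le_log_of_M0 hM0
  have hnm := n_le_of_K hm1 hK
  have hYs : (List.ofFn τ).length = m := List.length_ofFn
  have e1 : decA (decoderInput n p τ, tape) = decodeW p.num.natAbs p.den n (List.ofFn τ) := by
    unfold decA
    rw [parse_decoderInput p hp0.le τ]
  rw [e1, decodeW_eq_core (by rw [hYs]; exact hnm)]
  have hab := natAbs_le_den hp0 hp1
  have hb : 0 < p.den := p.den_pos
  have hpc := cast_p hp0
  have hpow := pow_parK_le n m hm1
  have hKdef : Nat.log 2 m / (64 * Nat.size n) = parK n m := rfl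
  rw [hKdef] at hK hId hgood
  have hstat : ∀ A : Finset ℕ, A.card ≤ parK n m → (∀ j ∈ A, j < n) →
      0 ≤ ((emp (maskOf n A) (List.ofFn τ) : ℚ) : ℝ) ∧
      ((emp (maskOf n A) (List.ofFn τ) : ℚ) : ℝ) ≤ 1 ∧
      |((emp (maskOf n A) (List.ofFn τ) : ℚ) : ℝ) -
        TT ((p.num.natAbs : ℝ) / (p.den : ℝ)) A x| ≤ (1 / 2 : ℝ) ^ (Nat.log 2 m / 8) := by
    intro A hA1 hA2
    refine ⟨by exact_mod_cast emp_nonneg _ _, by exact_mod_cast emp_le_one _ _, ?_⟩
    rw [emp_eq_That hA2, hpc]
    exact hgood A hA1 hA2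
  have hcore : decodeCore p.num.natAbs p.den n (List.ofFn τ) = List.ofFn x := by
    refine decodeCore_eq x fun t ht => ?_
    rw [hYs]
    have hw : ((List.ofFn x).take t).length = t := by
      rw [List.length_take, List.length_ofFn]; omega
    have hwx : ∀ i : Fin n, (i : ℕ) < ((List.ofFn x).take t).length →
        ((List.ofFn x).take t).getD i false = x i := by
      intro i hi
      rw [List.getD_eq_getElem _ _ hi, List.getElem_take, List.getElem_ofFn]
    have hlt : ((List.ofFn x).take t).length < n := by rw [hw]; exact ht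
    have hsplit : (List.ofFn x).take t ++ List.ofFn (fun i : Fin (n - ((List.ofFn x).take t).length) =>
        x ⟨((List.ofFn x).take t).length + i, by omega⟩) = List.ofFn x := by
      have h1 := ofFn_glue ((List.ofFn x).take t) hlt.le
        (fun i : Fin (n - ((List.ofFn x).take t).length) =>
          x ⟨((List.ofFn x).take t).length + i, by omega⟩)
      rw [← h1]
      congr 1
      funext i
      unfold glue
      by_cases hi : (i : ℕ) < ((List.ofFn x).take t).length
      · rw [dif_pos hi, hwx i hi]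
      · rw [dif_neg hi]
        refine congrArg x (Fin.ext ?_)
        show ((List.ofFn x).take t).length + ((i : ℕ) - ((List.ofFn x).take t).length) = i
        omega
    have hsol : SolOut m p.num.natAbs p.den n (parK n m) (statsOf n (parK n m) (List.ofFn τ))
        ((List.ofFn x).take t) := by
      refine hS m _ _ n _ _ (fun i => x ⟨((List.ofFn x).take t).length + i, by omega⟩) _ hab hb hlt
        hpow hL ?_
      intro Jt hJt
      obtain ⟨h1, h2, h3, h4, h5, h6⟩ := mem_statsOf hJt
      refine ⟨h2, h3, h5, h6, ?_⟩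
      obtain ⟨k1, k2, k3, k4⟩ := mask_eq_maskOf h1
      rw [hsplit, parTol_eq, h4, k1]
      have h7 := (hstat (setOf Jt.1) k3 k4).2.2
      rw [TT_eq _ k4] at h7
      have h8 : (0 : ℝ) ≤ (1 / 2 : ℝ) ^ (Nat.log 2 m / 8) := by positivity
      exact sq_le_sq' (by linarith [(abs_le.1 h7).1]) (abs_le.1 h7).2
    have key := nextBit_of_solOut (m := m) hab hb hK hpow hL x (List.ofFn τ) hstat
      (by rw [hpc]; exact hId) ((List.ofFn x).take t) hwx hlt hsol
    rw [key]
    exact congrArg x (Fin.ext hw)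
  rw [hcore, readWord_ofFn]

end Crest.Agent.R300.Dec
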