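import Crest.Agent.Lib.PT.ArithRat
import Crest.Agent.Lib.PT.ListFns2
import Crest.Agent.R300.U.Defs

-- ▼ part R300/Dec/Mask
section

/-!
# Row 300, machine side: bit masks of bounded weight

`masks n d` = list of all bit lists of length `n` with at most `d` entries `true`.
-/

set_option autoImplicit false
set_option linter.dupNamespace false

namespace Crest.Agent.R300.Dec

open Crest.Agent.Lib.PT

/-- one step: prepend a bit, keep the masks of weight `≤ d` -/
def mstep (d : ℕ) (l : List (List Bool)) : List (List Bool) :=
  (l.flatMap fun S => [false :: S, true :: S]).filter fun S => decide (S.count true ≤ d)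

/-- all bit lists of length `n` with at most `d` entries `true` -/
def masks (n d : ℕ) : List (List Bool) := (mstep d)^[n] [[]]

theorem masks_zero (d : ℕ) : masks 0 d = [[]] := rfl

theorem masks_succ (n d : ℕ) : masks (n + 1) d = mstep d (masks n d) :=
  Function.iterate_succ_apply' _ _ _

theorem mem_masks {n d : ℕ} {S : List Bool} :
    S ∈ masks n d ↔ S.length = n ∧ S.count true ≤ d := by
  induction n generalizing S with
  | zero =>
    rw [masks_zero]
    simp only [List.mem_singleton, List.length_eq_zero_iff]
    constructor
    · rintro rfl; simp
    · rintro ⟨h, _⟩; exact h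
  | succ n ih =>
    rw [masks_succ]
    simp only [mstep, List.mem_filter, List.mem_flatMap, List.mem_cons, List.not_mem_nil,
      or_false, decide_eq_true_eq]
    constructor
    · rintro ⟨⟨R, hR, rfl | rfl⟩, h⟩
      · exact ⟨by simp [(ih.1 hR).1], h⟩
      · exact ⟨by simp [(ih.1 hR).1], h⟩
    · rintro ⟨h1, h2⟩
      cases S with
      | nil => simp at h1
      | cons b S =>
        simp only [List.length_cons, add_left_inj] at h1
        have hc : S.count true ≤ (b :: S).count true := List.count_le_count_cons
        refine ⟨⟨S, ih.2 ⟨h1, hc.trans h2⟩, ?_⟩, h2⟩
        cases b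
        · exact Or.inl rfl
        · exact Or.inr rfl

theorem nodup_masks (n d : ℕ) : (masks n d).Nodup := by
  induction n with
  | zero => rw [masks_zero]; simp
  | succ n ih =>
    rw [masks_succ]
    refine List.Nodup.filter _ ?_
    rw [List.nodup_flatMap]
    refine ⟨fun S _ => by simp, ih.imp ?_⟩
    intro S R hSR
    simp only [Function.onFun, List.disjoint_cons_left, List.mem_cons, List.cons.injEq, true_and,
      false_and, List.not_mem_nil, or_false, false_or, List.disjoint_nil_left,
      and_true, Bool.false_eq_true, Bool.true_eq_false]
    exact ⟨hSR, hSR⟩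

theorem filter_masks {n d d' : ℕ} (h : d' ≤ d) :
    (masks n d).filter (fun S => decide (S.count true ≤ d')) = masks n d' := by
  induction n with
  | zero => rw [masks_zero, masks_zero]; simp
  | succ n ih =>
    rw [masks_succ, masks_succ, ← ih, mstep, mstep, List.filter_filter]
    generalize masks n d = l
    have e1 : (fun a : List Bool => decide (a.count true ≤ d') && decide (a.count true ≤ d)) =
        fun a => decide (a.count true ≤ d') := by
      funext a
      rw [← Bool.decide_and, decide_eq_decide]
      omega
    rw [e1]
    induction l with
    | nil => rfl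
    | cons S l ihl =>
      by_cases hS : S.count true ≤ d'
      · have h0 : (S :: l).filter (fun S => decide (S.count true ≤ d')) =
            S :: l.filter (fun S => decide (S.count true ≤ d')) :=
          List.filter_cons_of_pos (by simpa using hS)
        rw [h0, List.flatMap_cons, List.filter_append, List.flatMap_cons, List.filter_append, ihl]
      · have h1 : ([false :: S, true :: S].filter fun a => decide (a.count true ≤ d')) = [] := by
          rw [List.filter_eq_nil_iff]
          intro a ha
          have h2 : S.count true ≤ a.count true := by
            simp only [List.mem_cons, List.not_mem_nil, or_false] at ha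
            rcases ha with rfl | rfl <;> exact List.count_le_count_cons
          simp only [decide_eq_true_eq]
          omega
        have h0 : (S :: l).filter (fun S => decide (S.count true ≤ d')) =
            l.filter (fun S => decide (S.count true ≤ d')) :=
          List.filter_cons_of_neg (by simpa using hS)
        rw [h0, List.flatMap_cons, List.filter_append, h1, List.nil_append, ihl]

theorem length_masks_succ (n d : ℕ) :
    (masks (n + 1) d).length ≤ (masks n d).length +
      ((masks n d).filter (fun S => decide (S.count true + 1 ≤ d))).length := by
  rw [masks_succ, mstep]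
  generalize masks n d = l
  induction l with
  | nil => simp
  | cons S l ih =>
    have h1 : ([false :: S, true :: S].filter fun a => decide (a.count true ≤ d)).length ≤
        1 + (if S.count true + 1 ≤ d then 1 else 0) := by
      have h3 : (true :: S).count true = S.count true + 1 := List.count_cons_self
      rw [List.filter_cons, List.filter_cons]
      by_cases h2 : S.count true + 1 ≤ d
      · rw [if_pos h2]
        split_ifs <;> simp
      · rw [if_neg h2, h3, decide_eq_false h2]
        by_cases h4 : (false :: S).count true ≤ d
        · rw [if_pos (decide_eq_true h4), if_neg (by decide)]; simp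
        · rw [if_neg (by rw [decide_eq_false h4]; decide), if_neg (by decide)]; simp
    have h0 : ((S :: l).flatMap fun S => [false :: S, true :: S]) =
      [false :: S, true :: S] ++ l.flatMap fun S => [false :: S, true :: S] := rfl
    rw [h0, List.filter_append, List.length_append, List.length_cons (a := S)]
    by_cases h2 : S.count true + 1 ≤ d
    · have e : (S :: l).filter (fun S => decide (S.count true + 1 ≤ d)) =
          S :: l.filter (fun S => decide (S.count true + 1 ≤ d)) :=
        List.filter_cons_of_pos (decide_eq_true h2)
      rw [e, List.length_cons]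
      rw [if_pos h2] at h1
      omega
    · have e : (S :: l).filter (fun S => decide (S.count true + 1 ≤ d)) =
          l.filter (fun S => decide (S.count true + 1 ≤ d)) :=
        List.filter_cons_of_neg (by rw [decide_eq_false h2]; decide)
      rw [e]
      rw [if_neg h2] at h1
      omega

theorem length_masks_le (n d : ℕ) : (masks n d).length ≤ (n + 1) ^ d := by
  induction n generalizing d with
  | zero => rw [masks_zero]; simp
  | succ n ih =>
    refine (length_masks_succ n d).trans ?_
    cases d with
    | zero =>
      have : ((masks n 0).filter (fun S => decide (S.count true + 1 ≤ 0))) = [] := by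
        rw [List.filter_eq_nil_iff]; intro a _; simp
      rw [this]
      simpa using ih 0
    | succ d =>
      have e : ((masks n (d + 1)).filter (fun S => decide (S.count true + 1 ≤ d + 1))) =
          masks n d := by
        rw [← filter_masks (n := n) (Nat.le_succ d)]
        congr 1
        funext S
        simp
      rw [e]
      have h1 := ih (d + 1)
      have h2 := ih d
      have h3 : (n + 1) ^ (d + 1) + (n + 1) ^ d = (n + 2) * (n + 1) ^ d := by ring
      have h4 : (n + 2) * (n + 1) ^ d ≤ (n + 2) * (n + 2) ^ d :=
        Nat.mul_le_mul_left _ (Nat.pow_le_pow_left (by omega) _)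
      have h5 : (n + 1 + 1) ^ (d + 1) = (n + 2) * (n + 2) ^ d := by ring
      omega


section ptf
variable {γ : Type} [PTCode γ]

theorem ptu_count {S : γ → List Bool} (hS : PTF S) : PTU (fun c => (S c).count true) :=
  (PTU.countP (p := fun _ b => b) hS (by show PTF (fun q : γ × Bool => q.2); fun_prop)).of_eq
    (fun c => by
      rw [List.count]
      congr 1
      funext b; cases b <;> rfl)

theorem ptf_mstep {d : γ → ℕ} {l : γ → List (List Bool)} (hd : PTU d) (hl : PTF l) :
    PTF (fun c => mstep (d c) (l c)) := by
  unfold mstep
  refine PTF.filter (p := fun c S => decide (S.count true ≤ d c))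
    (PTF.flatMap (f := fun _ S => [false :: S, true :: S]) hl ?_) ?_
  · show PTF (fun q : γ × List Bool => [false :: q.2, true :: q.2])
    fun_prop
  · exact (PTU.le (ptu_count PTF.snd) (PTU.comp hd PTF.fst)).toPTF

theorem sz_masks_le (n d : ℕ) : sz (masks n d) ≤ (n + 1) ^ d * (2 * (3 * n) + 1) := by
  refine (sz_list_le (m := 3 * n) fun S hS => ?_).trans
    (Nat.mul_le_mul_right _ (length_masks_le n d))
  rw [sz_listBool, (mem_masks.1 hS).1]

/-- `masks n d` is polynomial time as soon as `(n + 1) ^ d` is polynomially bounded. -/
theorem ptf_masks {n d : γ → ℕ} (hn : PTU n) (hd : PTU d)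
    (hB : PB (fun c => (n c + 1) ^ d c)) : PTF (fun c => masks (n c) (d c)) := by
  have hn' : PB n := hn.pb
  refine PTF.iterate' (f := fun c l => mstep (d c) l) (a := fun _ => [[]]) hn
    (ptf_mstep (PTU.comp hd PTF.fst) PTF.snd) (PTF.const _)
    (B := fun c => (n c + 1) ^ d c * (2 * (3 * n c) + 1)) (by fun_prop) ?_
  intro c i hi
  refine (sz_masks_le i (d c)).trans ?_
  exact Nat.mul_le_mul (Nat.pow_le_pow_left (by omega) _) (by omega)

end ptf

end Crest.Agent.R300.Dec
end

-- ▼ part R300/Dec/Coef
section

/-!
# Row 300, machine side: coefficients of the trace moments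

`hit J y`: all positions of the mask `J` carry the letter `true` in `y`.
`Ec a c S J` is the integer `(a + c) ^ |S| * P(J | S)`: the (scaled) probability, under retention
`a / (a + c)`, that the positions `S` of the source are exactly the positions `J` of the trace.
-/

set_option autoImplicit false
set_option linter.dupNamespace false

namespace Crest.Agent.R300.Dec

open Crest.Agent.Lib.PT Crest.FinProb Crest.TraceRecon

/-- all positions of `J` carry a `true` in `y` (`y` is extended by `false`) -/
def hit : List Bool → List Bool → Bool
  | [], _ => true
  | j :: J, y => (!j || y.headD false) && hit J y.tail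

@[simp] theorem hit_nil (y : List Bool) : hit [] y = true := rfl

theorem hit_cons (j : Bool) (J y : List Bool) :
    hit (j :: J) y = ((!j || y.headD false) && hit J y.tail) := rfl

theorem hit_iff (J y : List Bool) :
    hit J y = true ↔ ∀ i, J.getD i false = true → y.getD i false = true := by
  induction J generalizing y with
  | nil => simp
  | cons j J ih =>
    rw [hit_cons, Bool.and_eq_true, ih]
    have e : ∀ i, y.tail.getD i false = y.getD (i + 1) false := by
      intro i; cases y <;> simp
    have e0 : y.headD false = y.getD 0 false := by cases y <;> simp
    constructor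
    · rintro ⟨h1, h2⟩ i hi
      cases i with
      | zero =>
        simp only [List.getD_cons_zero] at hi
        rw [hi, e0] at h1
        simpa using h1
      | succ i =>
        rw [← e]
        exact h2 i (by simpa using hi)
    · intro h
      refine ⟨?_, fun i hi => ?_⟩
      · have := h 0
        rw [List.getD_cons_zero] at this
        rw [e0]
        cases j
        · rfl
        · simpa using this rfl
      · rw [e]
        exact h (i + 1) (by simpa using hi)

theorem hit_nil_right_iff (J : List Bool) : hit J [] = true ↔ J.count true = 0 := by
  induction J with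
  | nil => simp
  | cons j J ih =>
    rw [hit_cons, List.tail_nil, Bool.and_eq_true, ih, List.headD_nil]
    cases j <;> simp

/-- expectation of `hit J` of a trace of `x` -/
noncomputable def eT (p : ℝ) : List Bool → List Bool → ℝ
  | [], J => if hit J [] then 1 else 0
  | b :: x, J => (1 - p) * eT p x J + p * (if (J.headD false && !b) = true then 0 else eT p x J.tail)

/-- scaled probability that the source positions `S` become the trace positions `J` -/
def Ec (a c : ℕ) : List Bool → List Bool → ℕ
  | [], J => if hit J [] then 1 else 0
  | s :: S, J => (if s = true then 0 else c * Ec a c S J) +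
      (if s = J.headD false then a * Ec a c S J.tail else 0)

theorem count_head_tail (J : List Bool) :
    J.count true = J.tail.count true + (if J.headD false = true then 1 else 0) := by
  cases J with
  | nil => simp
  | cons j J => cases j <;> simp

theorem Ec_ne_zero {a c : ℕ} {S J : List Bool} (h : Ec a c S J ≠ 0) :
    S.count true = J.count true := by
  induction S generalizing J with
  | nil =>
    rw [Ec] at h
    have h1 : hit J [] = true := by
      by_contra h'
      exact h (if_neg h')
    rw [hit_nil_right_iff] at h1
    simp [h1]
  | cons s S ih =>
    rw [Ec] at h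
    by_cases hs : s = true
    · subst hs
      rw [if_pos rfl, zero_add] at h
      by_cases h2 : true = J.headD false
      · rw [if_pos h2] at h
        have h3 := ih (right_ne_zero_of_mul h)
        rw [count_head_tail J, ← h2, if_pos rfl, ← h3]
        simp
      · rw [if_neg h2] at h; exact absurd rfl h
    · have hs' : s = false := by simpa using hs
      subst hs'
      rw [if_neg (by decide)] at h
      have e : (false :: S).count true = S.count true := by simp
      rw [e]
      by_cases h1 : c * Ec a c S J = 0
      · rw [h1, zero_add] at h
        by_cases h2 : false = J.headD false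
        · rw [if_pos h2] at h
          have h3 := ih (right_ne_zero_of_mul h)
          rw [count_head_tail J, ← h2, if_neg (by decide), ← h3]
          simp
        · rw [if_neg h2] at h; exact absurd rfl h
      · exact ih (right_ne_zero_of_mul h1)

theorem sum_mstep {M : Type} [AddCommMonoid M] (d : ℕ) (l : List (List Bool))
    (F : List Bool → M) (hl : ∀ S ∈ l, S.count true ≤ d)
    (hF : ∀ S ∈ l, ¬ S.count true + 1 ≤ d → F (true :: S) = 0) :
    ((mstep d l).map F).sum = (l.map fun S => F (false :: S) + F (true :: S)).sum := by
  induction l with
  | nil => rfl
  | cons S l ih =>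
    have h0 : mstep d (S :: l) = (([false :: S, true :: S] : List (List Bool)).filter
        fun S => decide (S.count true ≤ d)) ++ mstep d l := by
      unfold mstep
      rw [← List.filter_append]
      rfl
    rw [h0, List.map_append, List.sum_append, List.map_cons, List.sum_cons,
      ih (fun S hS => hl S (List.mem_cons_of_mem _ hS))
        (fun S hS => hF S (List.mem_cons_of_mem _ hS))]
    congr 1
    have h1 : (false :: S).count true ≤ d := by
      have : (false :: S).count true = S.count true := by simp
      rw [this]; exact hl S List.mem_cons_self
    have h3 : (true :: S).count true = S.count true + 1 := List.count_cons_self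
    rw [List.filter_cons, if_pos (decide_eq_true h1), List.filter_cons, h3]
    by_cases h2 : S.count true + 1 ≤ d
    · rw [if_pos (decide_eq_true h2)]; simp
    · rw [if_neg (by rw [decide_eq_false h2]; decide), hF S List.mem_cons_self h2]; simp

/-- the polynomial form of the trace moments -/
theorem sum_Ec (a c : ℕ) (hb : 0 < a + c) (d : ℕ) (x J : List Bool) (hJ : J.count true ≤ d) :
    ((masks x.length d).map fun S => (Ec a c S J : ℝ) * (if hit S x then 1 else 0)).sum =
      ((a + c : ℕ) : ℝ) ^ x.length * eT ((a : ℝ) / ((a + c : ℕ) : ℝ)) x J := by
  have hb' : ((a + c : ℕ) : ℝ) ≠ 0 := by positivity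
  induction x generalizing J with
  | nil =>
    rw [List.length_nil, masks_zero]
    simp [Ec, eT]
  | cons b x ih =>
    rw [List.length_cons, masks_succ, sum_mstep]
    · have hJt : J.tail.count true ≤ d := by
        have := count_head_tail J; omega
      have h1 := ih J hJ
      have h2 := ih J.tail hJt
      have e : ∀ S : List Bool,
          (Ec a c (false :: S) J : ℝ) * (if hit (false :: S) (b :: x) then 1 else 0) +
          (Ec a c (true :: S) J : ℝ) * (if hit (true :: S) (b :: x) then 1 else 0) =
          (c : ℝ) * ((Ec a c S J : ℝ) * (if hit S x then 1 else 0)) +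
          (if (J.headD false && !b) = true then 0 else a) *
            ((Ec a c S J.tail : ℝ) * (if hit S x then 1 else 0)) := by
        intro S
        rw [hit_cons, hit_cons, Ec, Ec]
        cases hh : hit S x <;> cases hj : J.headD false <;> cases b <;> simp [hh] <;> ring
      have e' : (fun S : List Bool =>
          (Ec a c (false :: S) J : ℝ) * (if hit (false :: S) (b :: x) then 1 else 0) +
          (Ec a c (true :: S) J : ℝ) * (if hit (true :: S) (b :: x) then 1 else 0)) =
          fun S => (c : ℝ) * ((Ec a c S J : ℝ) * (if hit S x then 1 else 0)) +
          (if (J.headD false && !b) = true then 0 else a) *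
            ((Ec a c S J.tail : ℝ) * (if hit S x then 1 else 0)) := funext e
      rw [e', List.sum_map_add, List.sum_map_mul_left, List.sum_map_mul_left, h1, h2, eT]
      have ec : (1 : ℝ) - (a : ℝ) / ((a + c : ℕ) : ℝ) = (c : ℝ) / ((a + c : ℕ) : ℝ) := by
        field_simp; push_cast; ring
      rw [ec]
      cases hj : J.headD false <;> cases b <;> simp only [Bool.and_true, Bool.and_false,
        Bool.not_true, Bool.not_false, Bool.false_eq_true, if_true, if_false, Bool.false_and,
        Bool.true_and, Nat.cast_zero] <;> field_simp <;> ring
    · intro S hS; exact (mem_masks.1 hS).2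
    · intro S hS h
      have : Ec a c (true :: S) J = 0 := by
        by_contra h'
        have h1 := Ec_ne_zero h'
        have h3 : (true :: S).count true = S.count true + 1 := List.count_cons_self
        omega
      rw [this]; simp

/-! ### the expectation -/

theorem bernoulliWeight_cons {n : ℕ} (p : ℝ) (b : Bool) (k : Fin n → Bool) :
    bernoulliWeight p (Fin.cons b k : Fin (n + 1) → Bool)
      = (if b then p else 1 - p) * bernoulliWeight p k := by
  unfold bernoulliWeight
  rw [Fin.prod_univ_succ]
  simp

theorem traceOf_cons {n : ℕ} (x : Fin (n + 1) → Bool) (b : Bool) (k : Fin n → Bool) :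
    traceOf x (Fin.cons b k : Fin (n + 1) → Bool)
      = if b then x 0 :: traceOf (fun i => x i.succ) k else traceOf (fun i => x i.succ) k := by
  unfold traceOf
  rw [List.finRange_succ]
  have h : List.map x (List.filter (fun i => (Fin.cons b k : Fin (n + 1) → Bool) i)
        (List.map Fin.succ (List.finRange n)))
      = List.map (fun i => x i.succ) (List.filter (fun i => k i) (List.finRange n)) := by
    rw [List.filter_map, List.map_map]
    rfl
  cases b
  · simp only [Fin.cons_zero, List.filter_cons, Bool.false_eq_true, if_false]
    exact h
  · simp only [Fin.cons_zero, List.filter_cons, if_true, List.map_cons]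
    rw [h]

theorem sum_hit (p : ℝ) {n : ℕ} (x : Fin n → Bool) (J : List Bool) :
    ∑ keep : Fin n → Bool, bernoulliWeight p keep * (if hit J (traceOf x keep) then 1 else 0) =
      eT p (List.ofFn x) J := by
  induction n generalizing J with
  | zero =>
    rw [Fintype.sum_unique]
    simp [bernoulliWeight, traceOf, eT]
  | succ n ih =>
    rw [← (Fin.consEquiv (fun _ => Bool)).sum_comp, Fintype.sum_prod_type]
    simp only [Fintype.sum_bool]
    rw [List.ofFn_succ, eT, ← ih, add_comm, Finset.mul_sum]
    congr 1
    · refine Finset.sum_congr rfl fun k _ => ?_
      have : (Fin.consEquiv (fun _ : Fin (n + 1) => Bool)) (false, k)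
          = (Fin.cons false k : Fin (n + 1) → Bool) := rfl
      rw [this, bernoulliWeight_cons, traceOf_cons]
      simp only [Bool.false_eq_true, if_false]
      rw [mul_assoc]
    · have h1 : ∀ k : Fin n → Bool,
          bernoulliWeight p ((Fin.consEquiv (fun _ : Fin (n + 1) => Bool)) (true, k)) *
            (if hit J (traceOf x ((Fin.consEquiv (fun _ : Fin (n + 1) => Bool)) (true, k))) then 1
              else 0) = p * (bernoulliWeight p k * (if (J.headD false && !(x 0)) = true then 0 else
              (if hit J.tail (traceOf (fun i => x i.succ) k) then 1 else 0))) := by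
        intro k
        have : (Fin.consEquiv (fun _ : Fin (n + 1) => Bool)) (true, k)
          = (Fin.cons true k : Fin (n + 1) → Bool) := rfl
        rw [this, bernoulliWeight_cons, traceOf_cons, if_pos rfl, if_pos rfl, mul_assoc]
        congr 2
        cases J with
        | nil => simp
        | cons j J =>
          rw [hit_cons]
          cases j <;> cases x 0 <;> simp <;> rfl
      rw [Finset.sum_congr rfl fun k _ => h1 k, ← Finset.mul_sum]
      congr 1
      split_ifs with h
      · simp
      · rw [ih]

/-- the mask of a finite set -/
def maskOf (n : ℕ) (a : Finset ℕ) : List Bool := (List.range n).map fun i => decide (i ∈ a)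

theorem maskOf_getD {n : ℕ} {a : Finset ℕ} (ha : ∀ j ∈ a, j < n) (i : ℕ) :
    (maskOf n a).getD i false = decide (i ∈ a) := by
  unfold maskOf
  by_cases hi : i < n
  · rw [List.getD_eq_getElem _ _ (by simpa using hi)]
    simp
  · rw [List.getD_eq_default _ _ (by simpa using Nat.le_of_not_lt hi)]
    symm
    rw [decide_eq_false_iff_not]
    exact fun h => hi (ha i h)

theorem hit_maskOf {n : ℕ} {a : Finset ℕ} (ha : ∀ j ∈ a, j < n) (y : List Bool) :
    hit (maskOf n a) y = true ↔ ∀ j ∈ a, y.getD j false = true := by
  rw [hit_iff]
  simp only [maskOf_getD ha, decide_eq_true_eq]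

theorem length_maskOf (n : ℕ) (a : Finset ℕ) : (maskOf n a).length = n := by
  simp [maskOf]

theorem count_maskOf {n : ℕ} {a : Finset ℕ} (ha : ∀ j ∈ a, j < n) :
    (maskOf n a).count true = a.card := by
  unfold maskOf
  rw [List.count, List.countP_map, List.countP_eq_length_filter]
  have h1 : (List.filter ((fun x => x == true) ∘ fun i => decide (i ∈ a)) (List.range n)).toFinset
      = a := by
    ext i
    simp only [List.mem_toFinset, List.mem_filter, List.mem_range, Function.comp]
    constructor
    · rintro ⟨_, h⟩; simpa using h
    · intro h; exact ⟨ha i h, by simpa using h⟩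
  rw [← List.toFinset_card_of_nodup (List.Nodup.filter _ List.nodup_range), h1]

theorem stat_eq {n : ℕ} {a : Finset ℕ} (ha : ∀ j ∈ a, j < n) (y : List Bool) :
    R300U.stat a y = if hit (maskOf n a) y = true then 1 else 0 := by
  unfold R300U.stat
  by_cases h : ∀ j ∈ a, y.getD j false = true
  · rw [if_pos h, if_pos ((hit_maskOf ha y).2 h)]
  · rw [if_neg h, if_neg (fun h' => h ((hit_maskOf ha y).1 h'))]

theorem TT_eq {n : ℕ} (p : ℝ) {a : Finset ℕ} (ha : ∀ j ∈ a, j < n) (x : Fin n → Bool) :
    R300U.TT p a x = eT p (List.ofFn x) (maskOf n a) := by
  rw [← sum_hit]
  unfold R300U.TT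
  exact Finset.sum_congr rfl fun k _ => by rw [stat_eq ha]

/-- the set of a mask -/
def setOf (J : List Bool) : Finset ℕ := (Finset.range J.length).filter fun i => J.getD i false = true

theorem maskOf_setOf (J : List Bool) : maskOf J.length (setOf J) = J := by
  unfold maskOf setOf
  refine List.ext_getElem (by simp) fun i h1 h2 => ?_
  simp only [List.length_map, List.length_range] at h1
  simp [h1, h2]

end Crest.Agent.R300.Dec
private theorem rz_f60d85465d : type_of% @_root_.Crest.Agent.R300.Dec.Ec.eq_def := @_root_.Crest.Agent.R300.Dec.Ec.eq_def -- L72
private theorem rz_085626e0df : type_of% @_root_.Crest.Agent.R300.Dec.Ec.eq_1 := @_root_.Crest.Agent.R300.Dec.Ec.eq_1 -- L72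
private theorem rz_2a35557ce4 : type_of% @_root_.Crest.Agent.R300.Dec.eT.eq_def := @_root_.Crest.Agent.R300.Dec.eT.eq_def -- L67
private theorem rz_dba05af40d : type_of% @_root_.Crest.Agent.R300.Dec.eT.eq_1 := @_root_.Crest.Agent.R300.Dec.eT.eq_1 -- L67
end

-- ▼ part R300/Dec/Row

/-!
# Row 300, machine side: dynamic program, terms, rows (definitions, correctness, `PTF`)
-/

set_option autoImplicit false
set_option linter.dupNamespace false

namespace Crest.Agent.R300.Dec

open Crest.Agent.Lib.PT

/-! ### dynamic program for `Ec` -/

/-- initial row -/
def dpInit (J : List Bool) : List ℕ :=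
  (List.range (J.length + 1)).map fun i => if hit (J.drop (min i J.length)) [] = true then 1 else 0

/-- one step -/
def dpStep (a c : ℕ) (J : List Bool) (s : Bool) (r : List ℕ) : List ℕ :=
  List.zipWith (fun (j : Bool) (rr : ℕ × ℕ) =>
    (if s = true then 0 else c * rr.1) + (if s = j then a * rr.2 else 0)) J (r.zip r.tail)

/-- the dynamic program -/
def EcDP (a c : ℕ) (S J : List Bool) : ℕ := (S.foldr (dpStep a c J) (dpInit J)).headD 0

theorem dp_spec (a c : ℕ) (J S : List Bool) (h : S.length ≤ J.length) :
    S.foldr (dpStep a c J) (dpInit J) =
      (List.range (J.length + 1 - S.length)).map fun i => Ec a c S (J.drop i) := by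
  induction S with
  | nil =>
    rw [List.foldr_nil, List.length_nil, Nat.sub_zero, dpInit]
    refine List.map_congr_left fun i hi => ?_
    rw [List.mem_range] at hi
    rw [min_eq_left (by omega), Ec]
  | cons s S ih =>
    rw [List.length_cons] at h
    rw [List.foldr_cons, ih (by omega), dpStep]
    refine List.ext_getElem ?_ fun i h1 h2 => ?_
    · simp only [List.length_zipWith, List.length_zip, List.length_map, List.length_range,
        List.length_tail, List.length_cons]
      omega
    · simp only [List.length_map, List.length_range, List.length_cons] at h2
      have hi : i < J.length := by omega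
      rw [List.getElem_zipWith, List.getElem_zip]
      simp only [List.getElem_map, List.getElem_range, List.getElem_tail]
      rw [Ec]
      have e1 : (J.drop i).headD false = J[i] := by
        rw [List.drop_eq_getElem_cons hi]; rfl
      have e2 : (J.drop i).tail = J.drop (i + 1) := by
        rw [List.drop_eq_getElem_cons hi]; rfl
      rw [e1, e2]

theorem EcDP_eq (a c : ℕ) {S J : List Bool} (h : S.length ≤ J.length) :
    EcDP a c S J = Ec a c S J := by
  unfold EcDP
  rw [dp_spec a c J S h]
  have : J.length + 1 - S.length = (J.length - S.length) + 1 := by omega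
  rw [this, List.range_succ_eq_map, List.map_cons, List.headD_cons, List.drop_zero]

theorem Ec_le (a c : ℕ) (S J : List Bool) : Ec a c S J ≤ (a + c) ^ S.length := by
  induction S generalizing J with
  | nil => rw [Ec]; split_ifs <;> simp
  | cons s S ih =>
    rw [Ec, List.length_cons, pow_succ]
    have h1 := ih J
    have h2 := ih J.tail
    split_ifs <;> nlinarith

/-! ### terms and rows -/

/-- union of masks -/
def orL (u v : List Bool) : List Bool := List.zipWith (fun a b => a || b) u v

/-- the polynomial `T_J - th` after the substitution of the known prefix `w`, as a list of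
(mask of tail positions, coefficient) -/
def terms (a b n K : ℕ) (w J : List Bool) (th : ℚ) : List (List Bool × ℚ) :=
  (List.replicate (n - w.length) false, -th) ::
    ((masks n K).filter fun S => hit (S.take w.length) w).map fun S =>
      (S.drop w.length, (EcDP a (b - a) S J : ℚ) / (b : ℚ) ^ n)

/-- the coefficients of the square of a polynomial -/
def rowOf (N d : ℕ) (P : List (List Bool × ℚ)) : List ℚ :=
  (masks N d).map fun R => (P.flatMap fun u =>
    (P.filter fun v => decide (orL u.1 v.1 = R)).map fun v => u.2 * v.2).sum

/-- position of the first occurrence -/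
def pos (l : List (List Bool)) (a : List Bool) : ℕ :=
  (l.takeWhile fun b => decide (b ≠ a)).length

/-- index table of the moment matrix of degree `D` -/
def idxTab (N D : ℕ) : List (List ℕ) :=
  (masks N D).map fun S => (masks N D).map fun S' => pos (masks N (2 * D)) (orL S S')

/-! ### evaluation -/

/-- evaluation of a polynomial given by terms -/
noncomputable def evalT (P : List (List Bool × ℚ)) (z : List Bool) : ℝ :=
  (P.map fun u => (u.2 : ℝ) * (if hit u.1 z = true then 1 else 0)).sum

theorem hit_append (S1 S2 w z : List Bool) (h : S1.length = w.length) :
    hit (S1 ++ S2) (w ++ z) = (hit S1 w && hit S2 z) := by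
  induction S1 generalizing w with
  | nil =>
    have : w = [] := List.length_eq_zero_iff.1 h.symm
    subst this
    simp
  | cons s S ih =>
    cases w with
    | nil => simp at h
    | cons b w =>
      rw [List.cons_append, List.cons_append, hit_cons, hit_cons, List.headD_cons, List.tail_cons,
        List.headD_cons, List.tail_cons, ih w (by simpa using h), Bool.and_assoc]

theorem hit_replicate_false (k : ℕ) (z : List Bool) : hit (List.replicate k false) z = true := by
  rw [hit_iff]
  intro i hi
  rw [List.getD_eq_getElem?_getD, List.getElem?_replicate] at hi
  split_ifs at hi <;> simp at hi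

/-- the terms evaluate to the trace moment minus the threshold -/
theorem evalT_terms {a b n K : ℕ} (hab : a ≤ b) (hb : 0 < b) {w z J : List Bool} (th : ℚ)
    (hw : w.length + z.length = n) (hJ : J.length = n) (hJK : J.count true ≤ K) :
    evalT (terms a b n K w J th) z = eT ((a : ℝ) / (b : ℝ)) (w ++ z) J - th := by
  have hb' : (b : ℝ) ≠ 0 := by positivity
  unfold evalT terms
  rw [List.map_cons, List.sum_cons, hit_replicate_false, if_pos rfl, List.map_map]
  have h1 : ((((masks n K).filter fun S => hit (S.take w.length) w).map
      ((fun u : List Bool × ℚ => (u.2 : ℝ) * (if hit u.1 z = true then 1 else 0)) ∘ fun S =>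
      (S.drop w.length, (EcDP a (b - a) S J : ℚ) / (b : ℚ) ^ n))).sum) =
      ((masks n K).map fun S => (1 / (b : ℝ) ^ n) *
        ((Ec a (b - a) S J : ℝ) * (if hit S (w ++ z) = true then 1 else 0))).sum := by
    have hm : ∀ S ∈ masks n K, S.length = n := fun S hS => (mem_masks.1 hS).1
    revert hm
    generalize masks n K = l
    intro hm
    induction l with
    | nil => rfl
    | cons S l ih =>
      have hS := hm S List.mem_cons_self
      have ih' := ih fun R hR => hm R (List.mem_cons_of_mem _ hR)
      have e : hit S (w ++ z) = (hit (S.take w.length) w && hit (S.drop w.length) z) := by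
        rw [← hit_append _ _ _ _ (by rw [List.length_take]; omega), List.take_append_drop]
      rw [List.filter_cons, List.map_cons, List.sum_cons, ← ih']
      by_cases hh : hit (S.take w.length) w = true
      · rw [if_pos hh, List.map_cons, List.sum_cons]
        congr 1
        simp only [Function.comp]
        rw [e, hh, Bool.true_and, EcDP_eq a (b - a) (by omega)]
        push_cast
        field_simp
      · rw [if_neg hh]
        rw [e]
        simp [hh]
  rw [h1, List.sum_map_mul_left]
  have hlen : (w ++ z).length = n := by rw [List.length_append]; exact hw
  have h2 := sum_Ec a (b - a) (by omega) K (w ++ z) J hJK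
  have e1 : a + (b - a) = b := by omega
  rw [hlen, e1] at h2
  rw [h2]
  push_cast
  field_simp
  ring

theorem length_orL {u v : List Bool} {N : ℕ} (hu : u.length = N) (hv : v.length = N) :
    (orL u v).length = N := by
  unfold orL; rw [List.length_zipWith, hu, hv, min_self]

theorem count_orL_le (u v : List Bool) : (orL u v).count true ≤ u.count true + v.count true := by
  unfold orL
  induction u generalizing v with
  | nil => simp
  | cons a u ih =>
    cases v with
    | nil => simp
    | cons b v =>
      rw [List.zipWith_cons_cons]
      have := ih v
      cases a <;> cases b <;> simp only [Bool.or_false, Bool.or_true, List.count_cons_self,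
        List.count_cons_of_ne, ne_eq, Bool.false_eq_true, not_false_eq_true] <;> omega

theorem hit_orL {u v z : List Bool} (h : u.length = v.length) :
    hit (orL u v) z = (hit u z && hit v z) := by
  unfold orL
  induction u generalizing v z with
  | nil =>
    have : v = [] := List.length_eq_zero_iff.1 h.symm
    subst this; rfl
  | cons a u ih =>
    cases v with
    | nil => simp at h
    | cons b v =>
      rw [List.zipWith_cons_cons, hit_cons, hit_cons, hit_cons, ih (by simpa using h)]
      cases a <;> cases b <;> cases z.headD false <;> cases hit u z.tail <;>
        cases hit v z.tail <;> rfl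

theorem zipWith_diag {α β : Type} (f : α → α → β) (l : List α) :
    List.zipWith f l l = l.map fun a => f a a := by
  induction l with
  | nil => rfl
  | cons a l ih => rw [List.zipWith_cons_cons, ih, List.map_cons]

/-- the row of the square, tested against an arbitrary function of masks -/
theorem sum_rowOf {N d : ℕ} {P : List (List Bool × ℚ)}
    (hP : ∀ u ∈ P, ∀ v ∈ P, orL u.1 v.1 ∈ masks N d) (μ : List Bool → ℝ) :
    (List.zipWith (fun (r : ℚ) (R : List Bool) => (r : ℝ) * μ R) (rowOf N d P) (masks N d)).sum =
      (P.map fun u => (P.map fun v => ((u.2 : ℝ) * v.2) * μ (orL u.1 v.1)).sum).sum := by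
  unfold rowOf
  rw [List.zipWith_map_left, zipWith_diag]
  have key : ∀ (Q : List (ℚ × List Bool)), (∀ q ∈ Q, q.2 ∈ masks N d) →
      ((masks N d).map fun R => ((((Q.filter fun v => decide (v.2 = R)).map fun v => v.1).sum : ℚ) : ℝ)
        * μ R).sum = (Q.map fun q => (q.1 : ℝ) * μ q.2).sum := by
    intro Q
    induction Q with
    | nil => intro _; simp
    | cons q Q ih =>
      intro hQ
      have ih' := ih fun q hq => hQ q (List.mem_cons_of_mem _ hq)
      rw [List.map_cons, List.sum_cons, ← ih']
      have hq := hQ q List.mem_cons_self
      have hnd := nodup_masks N d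
      have h1 : ∀ R, (((((q :: Q).filter fun v => decide (v.2 = R)).map fun v => v.1).sum : ℚ) : ℝ)
          * μ R = (if q.2 = R then (q.1 : ℝ) * μ q.2 else 0) +
            ((((Q.filter fun v => decide (v.2 = R)).map fun v => v.1).sum : ℚ) : ℝ) * μ R := by
        intro R
        rw [List.filter_cons]
        by_cases h : q.2 = R
        · rw [if_pos (decide_eq_true h), if_pos h, List.map_cons, List.sum_cons, ← h]
          push_cast
          ring
        · rw [if_neg (by simpa using h), if_neg h, zero_add]
      rw [List.map_congr_left (fun R _ => h1 R), List.sum_map_add]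
      congr 1
      revert hq hnd
      generalize masks N d = l
      intro hq hnd
      induction l with
      | nil => simp at hq
      | cons R l ihl =>
        rw [List.map_cons, List.sum_cons]
        rw [List.nodup_cons] at hnd
        by_cases h : q.2 = R
        · rw [if_pos h]
          have : (l.map fun R => if q.2 = R then (q.1 : ℝ) * μ q.2 else 0).sum = 0 := by
            apply List.sum_eq_zero
            intro x hx
            rw [List.mem_map] at hx
            obtain ⟨R', hR', rfl⟩ := hx
            rw [if_neg]
            rintro rfl
            exact hnd.1 (h ▸ hR')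
          rw [this, add_zero]
        · rw [if_neg h, zero_add]
          refine ihl ?_ hnd.2
          rcases List.mem_cons.1 hq with h' | h'
          · exact absurd h' h
          · exact h'
  have h2 := key (P.flatMap fun u => P.map fun v => (u.2 * v.2, orL u.1 v.1)) (by
    intro q hq
    rw [List.mem_flatMap] at hq
    obtain ⟨u, hu, hq⟩ := hq
    rw [List.mem_map] at hq
    obtain ⟨v, hv, rfl⟩ := hq
    exact hP u hu v hv)
  have h3 : ∀ R : List Bool, (P.flatMap fun u => (P.filter fun v => decide (orL u.1 v.1 = R)).map
      fun v => u.2 * v.2) = (((P.flatMap fun u => P.map fun v => (u.2 * v.2, orL u.1 v.1)).filter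
        fun v => decide (v.2 = R)).map fun v => v.1) := by
    intro R
    rw [List.filter_flatMap, List.map_flatMap]
    congr 1
    funext u
    rw [List.filter_map, List.map_map]
    rfl
  rw [List.map_congr_left (fun R _ => by rw [h3 R]), h2, List.map_flatMap, List.flatMap_def,
    List.sum_flatten, List.map_map]
  congr 1
  refine List.map_congr_left fun u _ => ?_
  simp only [Function.comp_apply]
  rw [List.map_map]
  congr 1
  refine List.map_congr_left fun v _ => ?_
  simp only [Function.comp]
  push_cast
  ring

theorem length_rowOf (N d : ℕ) (P : List (List Bool × ℚ)) :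
    (rowOf N d P).length = (masks N d).length := by
  unfold rowOf; rw [List.length_map]

theorem pos_lt {l : List (List Bool)} {a : List Bool} (h : a ∈ l) : pos l a < l.length := by
  unfold pos
  induction l with
  | nil => simp at h
  | cons b l ih =>
    rw [List.takeWhile_cons]
    by_cases hb : b = a
    · simp [hb]
    · rw [if_pos (decide_eq_true hb), List.length_cons, List.length_cons]
      have := ih ((List.mem_cons.1 h).resolve_left fun e => hb e.symm)
      omega

theorem getD_pos {l : List (List Bool)} {a : List Bool} (h : a ∈ l) : l.getD (pos l a) [] = a := by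
  unfold pos
  induction l with
  | nil => simp at h
  | cons b l ih =>
    rw [List.takeWhile_cons]
    by_cases hb : b = a
    · simp [hb]
    · rw [if_pos (decide_eq_true hb), List.length_cons, List.getD_cons_succ]
      exact ih ((List.mem_cons.1 h).resolve_left fun e => hb e.symm)

end Crest.Agent.R300.Dec
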